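import Vale.Agent.P181.H382.H112.Defs
import Vale.Agent.P181.H382.H755.Core
import Vale.Agent.P181.TB.H278.Mono

set_option autoImplicit false

/-!
# P181, LS: the core of helper755 with fewer letters on the lower side
-/

namespace Vale.Agent.P181.H382.H388

open Vale.Agent.P181.H382.H112
open Vale.Agent.P181.H382.H755

open Vale.Agent.P181.T4 (HW)
open Vale.Agent.P181.H280 (plethMult)
open Vale.Agent.P181.TL (KK dn2)
open Vale.Agent.P181.TL.H797 (bal bal_le sum_bal)

/-- `CoreS` with `n + 2 h + 9 K = b₀ ≤ b`. -/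
def CoreT : Prop := ∃ a₀ : ℕ, ∀ (a b b₀ k e n m X h R K : ℕ) (lam : Fin (k + 3) → ℕ),
  lam 1 + (b - b₀) * a ≤ lam 0 → ∑ i, lam i = a * b → b₀ ≤ b → a₀ + e ≤ a → 12 < a → 1 ≤ m →
  1 ≤ X → 1 ≤ h → a ≤ n → n + 2 * h + 9 * K = b₀ → e * b₀ ≤ K * (a - 12) →
  (m * (X + 1) + X) * n ≤ dn2 lam → dn2 lam / n + m * (X + 1) + 1 ≤ dn2 lam / a →
  lam 2 ≤ h * R → dn2 lam / a + n / m + 2 + R ≤ e →
  n * (n / m) + 2 * e * h + lam 2 + K * (5 * a - 6) + 9 * a ≤ lam 1 →
  2 * a ^ 3 ≤ (lam 1 + a) * (dn2 lam + a) →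
  (55 * ((lam 1 + a) * (dn2 lam + a))) ^ a * (a * b₀ + 1) ^ 3 ≤ a ^ (3 * a) * X ^ n →
  plethMult a b (k + 3) lam ≤ plethMult b a (k + 3) lam

/-- More letters of the first row. -/
theorem mono_add (a k r : ℕ) : ∀ (b : ℕ) (lam mu : Fin (k + 1) → ℕ), mu 0 = lam 0 + r * a →
    (∀ i : Fin k, mu i.succ = lam i.succ) →
    plethMult b a (k + 1) lam ≤ plethMult (b + r) a (k + 1) mu := by
  induction r with
  | zero =>
    intro b lam mu h0 hs
    have : mu = lam := by
      funext i
      refine Fin.cases ?_ (fun j => hs j) i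
      rw [h0]; simp
    rw [this]
    exact le_rfl
  | succ r ih =>
    intro b lam mu h0 hs
    have h1 := ih b lam (Fin.cons (lam 0 + r * a) fun i => lam i.succ) (by simp) (by simp)
    refine h1.trans ?_
    exact Vale.Agent.P181.TB.H278.monoTB a (b + r) k _ mu (by simp [h0]; ring) (by simp [hs])

theorem coreT (hU : UpC) (hC : CntC) (h5 : LowM) (hp : GK.PadPos) (hBal : BAL.Balance)
    (hz : ∀ (a b n : ℕ) (lam : Fin n → ℕ), plethMult a b n lam ≠ 0 → ∑ i, lam i = a * b) :
    CoreT := by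
  obtain ⟨a0, hpos⟩ := Vale.Agent.P181.GK.H809.pos_two
  refine ⟨a0, ?_⟩
  intro a bb b k e n m X h R K lamb h10b hsumb hbb hae ha12 hm hX hh han hnb hKe hkey1 hkey2 hR hRe
    hL hST hnum
  have ha0 : 0 < a := by omega
  -- the shortened weight
  obtain ⟨lam, hlam⟩ : ∃ lam : Fin (k + 3) → ℕ,
      lam = Fin.cons (lamb 0 - (bb - b) * a) fun i => lamb i.succ := ⟨_, rfl⟩
  have l0 : lam 0 = lamb 0 - (bb - b) * a := by rw [hlam]; rfl
  have ls : ∀ i : Fin (k + 2), lam i.succ = lamb i.succ := fun i => by rw [hlam]; rfl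
  have l1 : lam 1 = lamb 1 := ls 0
  have l2 : lam 2 = lamb 2 := ls 1
  have lt : (fun i : Fin (k + 1) => lam i.succ.succ) = fun i => lamb i.succ.succ := by
    funext i; exact ls i.succ
  have ld : dn2 lam = dn2 lamb := by
    unfold dn2
    exact Finset.sum_congr rfl fun i _ => ls i.succ
  have hle : (bb - b) * a ≤ lamb 0 := by omega
  have h10 : lam 1 ≤ lam 0 := by rw [l0, l1]; omega
  have hsum : ∑ i, lam i = a * b := by
    have e1 : ∑ i, lam i = lam 0 + (lam 1 + dn2 lam) := by rw [sum_three]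
    have e2 : ∑ i, lamb i = lamb 0 + (lamb 1 + dn2 lamb) := by rw [sum_three]
    rw [e1, l0, l1, ld]
    rw [hsumb] at e2
    have e3 : a * bb = a * b + (bb - b) * a := by
      rw [mul_comm (bb - b) a, ← Nat.mul_add]
      congr 1
      omega
    omega
  have hmono : plethMult b a (k + 3) lam ≤ plethMult bb a (k + 3) lamb := by
    have := mono_add a (k + 2) (bb - b) b lam lamb (by rw [l0]; omega) (fun i => (ls i).symm)
    rwa [Nat.add_sub_cancel' hbb] at this
  rw [← ld] at hkey1 hkey2 hRe hST hnum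
  rw [← l1] at hL hST hnum
  rw [← l2] at hL hR
  set t := dn2 lam with htdef
  set tau : Fin (k + 1) → ℕ := fun i => lam i.succ.succ with htau
  have httau : ∑ i, tau i = t := rfl
  have htau0 : tau 0 = lam 2 := rfl
  have htot : lam 0 + (lam 1 + t) = a * b := by rw [← hsum, sum_three]
  have hK5 : K * (5 * a - 6) = K * (4 * a + 6) + K * (a - 12) := by
    rw [← Nat.mul_add]
    congr 1
    omega
  have hK9 : K * (4 * a + 6) + K * (5 * a - 6) = a * (9 * K) := by
    rw [← Nat.mul_add, show 4 * a + 6 + (5 * a - 6) = 9 * a by omega]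
    ring
  have h9 : 9 * K ≤ b := by omega
  -- the lower bound
  obtain ⟨i0, hi0, e5⟩ := h5 k a e n m X h R tau (bal a t) ha0 hm hX hh han
    (fun i => by rw [httau]; exact le_bal a t i) (by rw [httau]; exact sum_bal ha0 t)
    (by rw [httau]; exact hkey1) (by rw [httau]; exact hkey2) (by rw [htau0]; exact hR)
    (by rw [httau]; exact hRe)
  rw [htau0] at hi0 e5
  set I := n * (n / m) + 2 * e * h + lam 2 with hI
  -- the intermediate weight
  set lam' : Fin (k + 3) → ℕ := fun i =>
    if (i : ℕ) = 0 then lam i - K * (4 * a + 6) else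
      if (i : ℕ) = 1 then lam i - K * (5 * a - 6) else lam i with hlam'
  have e0 : lam' 0 = lam 0 - K * (4 * a + 6) := by
    simp [hlam']
  have e1 : lam' 1 = lam 1 - K * (5 * a - 6) := by
    simp [hlam']
  have etail : (fun i : Fin (k + 1) => lam' i.succ.succ) = tau := by
    funext i
    simp only [hlam', htau, Fin.val_succ]
    rw [if_neg (by omega), if_neg (by omega)]
  have hK1 : K * (5 * a - 6) ≤ lam 1 := by omega
  have hK0 : K * (4 * a + 6) ≤ lam 0 := by omega
  set b' := n + 2 * h with hb'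
  have hab' : a * b' + a * (9 * K) = a * b := by rw [← Nat.mul_add, hnb]
  have heb : e * b' ≤ e * b := Nat.mul_le_mul_left _ (by omega)
  have hae' : (a - e) * b' + e * b' = a * b' := by
    rw [← Nat.add_mul, Nat.sub_add_cancel (by omega)]
  have key2 : plethMult b' e (k + 3) (wj (e * b') i0 tau) ≤ plethMult b' a (k + 3) lam' := by
    by_cases h0 : plethMult b' e (k + 3) (wj (e * b') i0 tau) = 0
    · rw [h0]
      exact Nat.zero_le _
    · have hs := hz _ _ _ _ h0
      rw [wj_sum, httau, mul_comm b' e] at hs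
      have hit : i0 + t ≤ e * b' := by omega
      have p1 := hpos (a - e) b' (lam' 0 - (e * b' - (i0 + t))) (lam' 1 - i0) (by omega)
        (by rw [e1]; omega) (by rw [e0, e1]; omega) (by rw [e0, e1]; omega)
      have q1 := hp b' (a - e) (k + 1) _ p1
      have s1 := FR.plethMult_pt (c := e) (lam := wj (e * b') i0 tau) q1
      rw [Nat.sub_add_cancel (show e ≤ a by omega)] at s1
      refine s1.trans (le_of_eq ?_)
      congr 1
      funext i
      refine Fin.cases ?_ (fun j => Fin.cases ?_ (fun l => ?_) j) i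
      · change lam' 0 - (e * b' - (i0 + t)) + (e * b' - (i0 + t)) = lam' 0
        rw [e0]
        omega
      · change lam' 1 - i0 + i0 = lam' 1
        rw [e1]
        omega
      · change 0 + tau l = lam' l.succ.succ
        rw [Nat.zero_add]
        exact (congrFun etail l).symm
  -- balancing
  have e7 := hBal a b' (k + 1) K lam' lam (by omega) (by rw [e0, e1]; omega)
    (by rw [e0]; omega) (by rw [e1]; omega) (fun i => (congrFun etail i).symm)
  rw [hnb] at e7
  have u1 : plethMult a bb (k + 3) lamb ≤ NP a (lam 1) t *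
      Module.finrank ℂ (KK (k + 1) (Fin a) (bal a t) tau) := by
    have := hU a bb k lamb (bal a t) ha0 (bal_le a _) (by rw [sum_bal ha0 _]; exact ld)
    rw [← l1, ← ld, ← lt] at this
    exact this
  have u2 := hC a (lam 1) t ha0 hST
  have c1 : n * X + 1 ≤ a * b + 1 := by
    have : n * X ≤ (m * (X + 1) + X) * n := by
      rw [mul_comm n X]
      exact Nat.mul_le_mul_right _ (Nat.le_add_left _ _)
    omega
  have c2 : I + 1 ≤ a * b + 1 := by omega
  have c3 : K * (a - 12) + 1 ≤ a * b + 1 := by omega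
  have key : (a ^ (3 * a) * (a * b + 1) ^ 3) * plethMult a bb (k + 3) lamb ≤
      (a ^ (3 * a) * (a * b + 1) ^ 3) * plethMult b a (k + 3) lam := by
    calc (a ^ (3 * a) * (a * b + 1) ^ 3) * plethMult a bb (k + 3) lamb
        ≤ (a ^ (3 * a) * (a * b + 1) ^ 3) * (NP a (lam 1) t *
            Module.finrank ℂ (KK (k + 1) (Fin a) (bal a t) tau)) := Nat.mul_le_mul_left _ u1
      _ = ((NP a (lam 1) t * a ^ (3 * a)) * (a * b + 1) ^ 3) *
            Module.finrank ℂ (KK (k + 1) (Fin a) (bal a t) tau) := by ring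
      _ ≤ ((55 * ((lam 1 + a) * (t + a))) ^ a * (a * b + 1) ^ 3) *
            Module.finrank ℂ (KK (k + 1) (Fin a) (bal a t) tau) :=
          Nat.mul_le_mul_right _ (Nat.mul_le_mul_right _ u2)
      _ ≤ (a ^ (3 * a) * X ^ n) * Module.finrank ℂ (KK (k + 1) (Fin a) (bal a t) tau) :=
          Nat.mul_le_mul_right _ hnum
      _ = a ^ (3 * a) * (X ^ n * Module.finrank ℂ (KK (k + 1) (Fin a) (bal a t) tau)) :=
          Nat.mul_assoc _ _ _
      _ ≤ a ^ (3 * a) * ((n * X + 1) *
            ((I + 1) * plethMult b' e (k + 3) (wj (e * b') i0 tau))) := Nat.mul_le_mul_left _ e5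
      _ ≤ a ^ (3 * a) * ((n * X + 1) *
            ((I + 1) * ((K * (a - 12) + 1) * plethMult b a (k + 3) lam))) :=
          Nat.mul_le_mul_left _
            (Nat.mul_le_mul_left _ (Nat.mul_le_mul_left _ (key2.trans e7)))
      _ ≤ a ^ (3 * a) * ((a * b + 1) *
            ((a * b + 1) * ((a * b + 1) * plethMult b a (k + 3) lam))) :=
          Nat.mul_le_mul_left _
            (Nat.mul_le_mul c1 (Nat.mul_le_mul c2 (Nat.mul_le_mul_right _ c3)))
      _ = (a ^ (3 * a) * (a * b + 1) ^ 3) * plethMult b a (k + 3) lam := by ring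
  exact (Nat.le_of_mul_le_mul_left key (by positivity)).trans hmono

end Vale.Agent.P181.H382.H388
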