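import Vale.Agent.P181.H382.H388.NumP
import Vale.Agent.P181.H382.H510.Near

set_option autoImplicit false

/-!
# P181, LL: all pairs `a < b` with `C b log log a ≤ (b - a) log (D_2 / a)`, `D_2 ≤ a ^ 2 / polylog`

From `TwoLongP`, `UniY` (small `w`) and `PolyS` (large `b`).
-/

namespace Vale.Agent.P181.H382.H388

open Vale.Agent.P181
open Vale.Agent.P181.T4 (ex)
open Vale.Agent.P181.H280 (plethMult)
open Vale.Agent.P181.PL (dn exlt exge exfin exanti dn_succ PolyS)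
open Vale.Agent.P181.TL (dn2)
open Vale.Agent.P181.H382.H510 (dn_small dn2_eq two_num)

/-- Every `b > a`, two long rows or small `w`: the gain `(b - a) log (D_2 / a)` beats
`b log log a`. -/
def NearP : Prop := ∃ (C : ℝ) (c : ℕ), 0 < C ∧ ∀ a b : ℕ, a < b → ∀ (n : ℕ) (lam : Fin n → ℕ),
  C * b * Real.log (2 + Real.log a) ≤ ((b : ℝ) - a) * Real.log ((dn lam 2 : ℝ) / a) →
  C * (1 + Real.log a) ^ c * (dn lam 2 : ℝ) ≤ (a : ℝ) ^ 2 →
  plethMult a b n lam ≤ plethMult b a n lam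

theorem nearP (h7 : TwoLongP) (hU : DX.H556.UniY) (hP : PolyS) : NearP := by
  obtain ⟨C3, c3, hC3, hP⟩ := hP
  obtain ⟨C2, c2, hC2, hU⟩ := hU
  obtain ⟨C4, c4, hC4, h7⟩ := h7 (2 * C2 + C3) (c2 + c3) (by linarith)
  have hC2' : 0 < C2 := by linarith
  refine ⟨C4 + 2 * C2, c4 + c2, by positivity, fun a b hab n lam hG hD => ?_⟩
  by_cases hz : plethMult a b n lam = 0
  · rw [hz]
    exact Nat.zero_le _
  obtain ⟨hanti, hsum, _⟩ := H530.zero_stmt a b n lam hz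
  by_contra hcon
  have hla := Real.log_natCast_nonneg a
  have hl2 : 1 / 2 ≤ Real.log (2 + Real.log a) := by
    have h1 : Real.log 2 ≤ Real.log (2 + Real.log a) := Real.log_le_log (by norm_num) (by linarith)
    have h2 := Real.log_two_gt_d9
    linarith
  obtain ⟨l, hl⟩ : ∃ l : ℝ, l = Real.log (2 + Real.log a) := ⟨_, rfl⟩
  rw [← hl] at hG hl2
  have habr : (a : ℝ) < b := by exact_mod_cast hab
  have ha0r : (0 : ℝ) ≤ a := Nat.cast_nonneg _
  have hbp : (0 : ℝ) < b := by linarith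
  -- `D_2 ≥ a`
  have hGl : 0 < Real.log ((dn lam 2 : ℝ) / a) := by
    by_contra hc
    rw [not_lt] at hc
    have h1 : ((b : ℝ) - a) * Real.log ((dn lam 2 : ℝ) / a) ≤ 0 :=
      mul_nonpos_of_nonneg_of_nonpos (by linarith) hc
    have h2 : 0 < (C4 + 2 * C2) * b * l := by positivity
    linarith
  have ha : 0 < a := by
    rcases Nat.eq_zero_or_pos a with h | h
    · rw [h, Nat.cast_zero, div_zero, Real.log_zero] at hGl
      exact absurd hGl (lt_irrefl _)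
    · exact h
  have ha0 : (0 : ℝ) < a := by exact_mod_cast ha
  obtain ⟨D, hDd⟩ : ∃ D : ℝ, D = (dn lam 2 : ℝ) := ⟨_, rfl⟩
  rw [← hDd] at hG hD hGl
  have hD0 : 0 ≤ D := by rw [hDd]; exact Nat.cast_nonneg _
  have hDa : (a : ℝ) < D := by
    by_contra hc
    rw [not_lt] at hc
    have h1 : Real.log (D / a) ≤ 0 := Real.log_nonpos (by positivity) (by
      rw [div_le_iff₀ ha0]; linarith)
    linarith
  obtain ⟨L, hL⟩ : ∃ L : ℝ, L = 1 + Real.log a := ⟨_, rfl⟩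
  have hL1 : 1 ≤ L := by linarith
  rw [← hL, pow_add] at hD
  obtain ⟨X2, hX2⟩ : ∃ X : ℝ, X = L ^ c2 := ⟨_, rfl⟩
  obtain ⟨X3, hX3⟩ : ∃ X : ℝ, X = L ^ c3 := ⟨_, rfl⟩
  obtain ⟨X4, hX4⟩ : ∃ X : ℝ, X = L ^ c4 := ⟨_, rfl⟩
  have h1X2 : 1 ≤ X2 := hX2 ▸ one_le_pow₀ hL1
  have h1X3 : 1 ≤ X3 := hX3 ▸ one_le_pow₀ hL1
  have h1X4 : 1 ≤ X4 := hX4 ▸ one_le_pow₀ hL1
  rw [← hX2, ← hX4] at hD
  -- `b` is small
  have hb : (b : ℝ) < C3 * a * X3 := by
    by_contra h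
    rw [hX3, hL] at h
    exact hcon (hP a b (not_lt.1 h) n lam)
  have hX4' : (0 : ℝ) ≤ X4 := zero_le_one.trans h1X4
  have hX3' : (0 : ℝ) ≤ X3 := zero_le_one.trans h1X3
  have hX2' : (0 : ℝ) ≤ X2 := zero_le_one.trans h1X2
  have h42 : 2 * C2 * X2 * D ≤ (a : ℝ) ^ 2 := by
    refine le_trans ?_ hD
    apply mul_le_mul_of_nonneg_right _ hD0
    have : X2 ≤ X4 * X2 := le_mul_of_one_le_left hX2' h1X4
    have h5 : 2 * C2 * X2 ≤ 2 * C2 * (X4 * X2) := mul_le_mul_of_nonneg_left this (by linarith)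
    have h6 : 0 ≤ C4 * (X4 * X2) := by positivity
    linarith
  have h44 : C4 * X4 * D ≤ (a : ℝ) ^ 2 := by
    refine le_trans ?_ hD
    apply mul_le_mul_of_nonneg_right _ hD0
    have : X4 ≤ X4 * X2 := le_mul_of_one_le_right hX4' h1X2
    have h5 : C4 * X4 ≤ C4 * (X4 * X2) := mul_le_mul_of_nonneg_left this hC4.le
    have h6 : 0 ≤ 2 * C2 * (X4 * X2) := by positivity
    linarith
  have hwD : (dn lam 1 : ℝ) = (ex lam 1 : ℝ) + D := by
    rw [hDd]
    exact_mod_cast dn_succ lam 1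
  have hab2 : (a : ℝ) ^ 2 ≤ (b : ℝ) ^ 2 := pow_le_pow_left₀ ha0.le habr.le 2
  -- `w` is large
  rcases le_or_gt (C2 * X2 * (dn lam 1 : ℝ)) ((a : ℝ) ^ 2) with hw | hw
  · apply hcon
    refine hU a b hab.le n lam (Or.inr (Or.inr (Or.inr ⟨?_, ?_⟩)))
    · rw [← hL, ← hX2]
      linarith
    · rw [← hL, ← hX2, ← hDd]
      have : (a : ℝ) ^ 2 ≤ D ^ 2 := pow_le_pow_left₀ ha0.le hDa.le 2
      linarith
  · apply hcon
    have hn : 3 ≤ n := by
      by_contra hn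
      have h1 := dn_small lam (by omega)
      rw [h1, Nat.cast_zero] at hDd
      linarith
    obtain ⟨k, rfl⟩ := Nat.exists_eq_add_of_le' hn
    have e1 : (ex lam 1 : ℝ) = (lam 1 : ℝ) := by
      rw [exlt lam (by omega : 1 < k + 3)]
      rfl
    have e2 : (dn2 lam : ℝ) = D := by
      rw [hDd, dn2_eq]
    refine h7 a b k lam hab (hanti (Fin.zero_le _)) hsum ?_ ?_ ?_ ?_
    · rw [← hL, pow_add, ← hX2, ← hX3]
      have h1 : C3 * X3 ≤ (2 * C2 + C3) * (X2 * X3) := by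
        have h2 : X3 ≤ X2 * X3 := le_mul_of_one_le_left hX3' h1X2
        have h3 : C3 * X3 ≤ C3 * (X2 * X3) := mul_le_mul_of_nonneg_left h2 hC3.le
        have h4 : 0 ≤ 2 * C2 * (X2 * X3) := by positivity
        linarith
      have h2 : C3 * X3 * a ≤ (2 * C2 + C3) * (X2 * X3) * a := mul_le_mul_of_nonneg_right h1 ha0.le
      linarith
    · rw [← hL, pow_add, ← hX2, ← hX3, ← e1]
      have h1 : 2 * C2 * X2 ≤ (2 * C2 + C3) * (X2 * X3) := by
        have h2 : X2 ≤ X2 * X3 := le_mul_of_one_le_right hX2' h1X3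
        have h3 : 2 * C2 * X2 ≤ 2 * C2 * (X2 * X3) := mul_le_mul_of_nonneg_left h2 (by linarith)
        have h4 : 0 ≤ C3 * (X2 * X3) := by positivity
        linarith
      have h2 : 2 * C2 * X2 * (ex lam 1 : ℝ) ≤ (2 * C2 + C3) * (X2 * X3) * (ex lam 1 : ℝ) :=
        mul_le_mul_of_nonneg_right h1 (Nat.cast_nonneg _)
      rw [hwD] at hw
      linarith
    · rw [← hl, e2]
      have h1 : C4 * b * l ≤ (C4 + 2 * C2) * b * l := by
        have : 0 ≤ 2 * C2 * b * l := by positivity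
        linarith
      linarith
    · rw [← hL, ← hX4, e2]
      exact h44

/-- `NearP` from the core. -/
theorem nearP_of (hC : CoreN) (hU : DX.H556.UniY) (hP : PolyS) : NearP :=
  nearP (twoLongP hC) hU hP

end Vale.Agent.P181.H382.H388
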