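import Vale.Agent.P181.H382.Defs

set_option autoImplicit false

namespace Vale.Agent.P181.H382.H388

/-- The choice of the numbers. -/
theorem pick (a b S t l1 l2 : ℕ) (hS : 2 ≤ S) (ha : 10 ^ 14 * S ^ 13 ≤ a) (hab : a < b)
    (hb : b ≤ S * a) (hg : b ≤ S * (b - a)) (hl1 : a ^ 2 ≤ S * l1) (ht1 : 10 ^ 6 * S ^ 5 * a ≤ t)
    (ht2 : 10 ^ 8 * S ^ 8 * t ≤ a ^ 2) (hl2 : l2 ≤ t) :
    ∃ e n m X h R K : ℕ, 2 * e ≤ a ∧ 1 ≤ m ∧ 1 ≤ X ∧ 1 ≤ h ∧ a + b ≤ 2 * n ∧
      n + 2 * h + 9 * K = b ∧ e * b ≤ K * (a - 12) ∧ (m * (X + 1) + X) * n ≤ t ∧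
      t / n + m * (X + 1) + 1 ≤ t / a ∧ l2 ≤ h * R ∧ t / a + n / m + 2 + R ≤ e ∧
      n * (n / m) + 2 * e * h + l2 + K * (5 * a - 6) + 9 * a ≤ l1 ∧
      t ≤ 128000 * S ^ 5 * a * X := by
  have hS1 : ∀ k : ℕ, 1 ≤ S ^ k := fun k => Nat.one_le_pow _ _ (by omega)
  have hSS : S ≤ S ^ 13 := by
    calc S = S ^ 1 := (pow_one S).symm
      _ ≤ S ^ 13 := Nat.pow_le_pow_right (by omega) (by norm_num)
  have haS : 10 ^ 14 * S ≤ a := (Nat.mul_le_mul_left _ hSS).trans ha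
  obtain ⟨g, rfl⟩ : ∃ g, b = a + g := ⟨b - a, by omega⟩
  have hg' : a + g ≤ S * g := by
    have : a + g - a = g := by omega
    rwa [this] at hg
  have hap : 0 < a := by omega
  -- e
  obtain ⟨e, he⟩ : ∃ e, e = a / (1000 * S ^ 2) := ⟨_, rfl⟩
  have hQp : 0 < 1000 * S ^ 2 := by have := hS1 2; omega
  have e1 : (1000 * S ^ 2) * e ≤ a := by rw [he]; exact Nat.mul_div_le _ _
  have e2 : a < (1000 * S ^ 2) * (e + 1) := by
    rw [he]
    have h1 := Nat.div_add_mod a (1000 * S ^ 2)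
    have h2 := Nat.mod_lt a hQp
    rw [Nat.mul_add, mul_one]
    omega
  have e3 : 10 ^ 11 ≤ e := by
    by_contra hc
    have h1 : e + 1 ≤ 10 ^ 11 := by omega
    have h2 : (1000 * S ^ 2) * (e + 1) ≤ (1000 * S ^ 2) * 10 ^ 11 := Nat.mul_le_mul_left _ h1
    have h3 : (1000 * S ^ 2) * 10 ^ 11 ≤ 10 ^ 14 * S ^ 13 := by
      have : S ^ 2 ≤ S ^ 13 := Nat.pow_le_pow_right (by omega) (by norm_num)
      calc (1000 * S ^ 2) * 10 ^ 11 = 10 ^ 14 * S ^ 2 := by ring
        _ ≤ _ := Nat.mul_le_mul_left _ this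
    omega
  have e4 : a ≤ 2000 * S ^ 2 * e := by
    have h1 : (1000 * S ^ 2) * (e + 1) ≤ (1000 * S ^ 2) * (2 * e) :=
      Nat.mul_le_mul_left _ (by omega)
    calc a ≤ (1000 * S ^ 2) * (2 * e) := by omega
      _ = 2000 * S ^ 2 * e := by ring
  -- R
  obtain ⟨R, hR⟩ : ∃ R, R = e / 4 := ⟨_, rfl⟩
  have r1 : 4 * R ≤ e := by omega
  have r2 : e ≤ 8 * R := by omega
  have r3 : 1 ≤ R := by omega
  -- h
  obtain ⟨h, hh⟩ : ∃ h, h = l2 / R + 1 := ⟨_, rfl⟩
  have h1 : l2 ≤ h * R := by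
    rw [hh]
    have k1 := Nat.div_add_mod l2 R
    have k2 := Nat.mod_lt l2 (show 0 < R by omega)
    have : (l2 / R + 1) * R = R * (l2 / R) + R := by ring
    omega
  have h2 : h * R ≤ t + R := by
    rw [hh]
    have k1 := Nat.mul_div_le l2 R
    have : (l2 / R + 1) * R = R * (l2 / R) + R := by ring
    omega
  -- K
  obtain ⟨κ, hκ⟩ : ∃ κ, κ = e * (a + g) / (a - 12) := ⟨_, rfl⟩
  have ha12 : 0 < a - 12 := by omega
  have k1 : e * (a + g) ≤ (κ + 1) * (a - 12) := by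
    have p1 := Nat.div_add_mod (e * (a + g)) (a - 12)
    have p2 := Nat.mod_lt (e * (a + g)) ha12
    rw [← hκ] at p1
    have : (κ + 1) * (a - 12) = (a - 12) * κ + (a - 12) := by ring
    omega
  have k2 : 1000 * S ^ 2 * κ ≤ 2 * (a + g) := by
    have p1 : (a - 12) * κ ≤ e * (a + g) := by rw [hκ]; exact Nat.mul_div_le _ _
    have p2 : a * κ ≤ 2 * (e * (a + g)) := by
      have : a ≤ 2 * (a - 12) := by omega
      calc a * κ ≤ 2 * (a - 12) * κ := Nat.mul_le_mul_right _ this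
        _ = 2 * ((a - 12) * κ) := by ring
        _ ≤ _ := Nat.mul_le_mul_left _ p1
    have p3 : a * (1000 * S ^ 2 * κ) ≤ a * (2 * (a + g)) := by
      calc a * (1000 * S ^ 2 * κ) = (1000 * S ^ 2) * (a * κ) := by ring
        _ ≤ (1000 * S ^ 2) * (2 * (e * (a + g))) := Nat.mul_le_mul_left _ p2
        _ = ((1000 * S ^ 2) * e) * (2 * (a + g)) := by ring
        _ ≤ a * (2 * (a + g)) := Nat.mul_le_mul_right _ e1
    exact Nat.le_of_mul_le_mul_left p3 hap
  have k3 : 1000 * κ ≤ g := by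
    have p1 : S * (1000 * κ) ≤ S * g := by
      have p2 : S * (S * (1000 * κ)) ≤ S * (2 * g) := by
        calc S * (S * (1000 * κ)) = 1000 * S ^ 2 * κ := by ring
          _ ≤ 2 * (a + g) := k2
          _ ≤ 2 * (S * g) := Nat.mul_le_mul_left _ hg'
          _ = S * (2 * g) := by ring
      have p3 := Nat.le_of_mul_le_mul_left p2 (by omega)
      have p4 : 2 * g ≤ S * g := Nat.mul_le_mul_right _ hS
      omega
    exact Nat.le_of_mul_le_mul_left p1 (by omega)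
  have g1 : 1000 ≤ g := by
    have p1 : S * 1000 ≤ S * g := by
      calc S * 1000 ≤ 10 ^ 14 * S := by omega
        _ ≤ a := haS
        _ ≤ a + g := by omega
        _ ≤ S * g := hg'
    exact Nat.le_of_mul_le_mul_left p1 (by omega)
  have ag : a ≤ S * g := by omega
  -- 4000 S² R ≤ a
  have r4 : 4000 * S ^ 2 * R ≤ a := by
    calc 4000 * S ^ 2 * R = (1000 * S ^ 2) * (4 * R) := by ring
      _ ≤ (1000 * S ^ 2) * e := Nat.mul_le_mul_left _ r1
      _ ≤ a := e1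
  have t8 : 10 ^ 8 * S ^ 3 * t ≤ a ^ 2 := by
    have : S ^ 3 ≤ S ^ 8 := Nat.pow_le_pow_right (by omega) (by norm_num)
    calc 10 ^ 8 * S ^ 3 * t ≤ 10 ^ 8 * S ^ 8 * t :=
          Nat.mul_le_mul_right _ (Nat.mul_le_mul_left _ this)
      _ ≤ a ^ 2 := ht2
  -- 16 h ≤ g
  have h3 : 16 * h ≤ g := by
    have p1 : h * a ≤ 16000 * S ^ 2 * (t + R) := by
      calc h * a ≤ h * (2000 * S ^ 2 * e) := Nat.mul_le_mul_left _ e4
        _ ≤ h * (2000 * S ^ 2 * (8 * R)) := by gcongr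
        _ = 16000 * S ^ 2 * (h * R) := by ring
        _ ≤ 16000 * S ^ 2 * (t + R) := Nat.mul_le_mul_left _ h2
    have p2 : S * (16 * (h * a)) ≤ a ^ 2 := by
      have q1 : S * (16 * (h * a)) ≤ S * (16 * (16000 * S ^ 2 * (t + R))) := by gcongr
      have q2 : S * (16 * (16000 * S ^ 2 * (t + R)))
          = 256000 * S ^ 3 * t + 64 * S * (4000 * S ^ 2 * R) := by ring
      have q3 : 2 * (256000 * S ^ 3 * t) ≤ a ^ 2 := by
        have : 2 * (256000 * S ^ 3 * t) ≤ 10 ^ 8 * S ^ 3 * t := by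
          have : 2 * (256000 * S ^ 3 * t) = 512000 * (S ^ 3 * t) := by ring
          have q : 10 ^ 8 * S ^ 3 * t = 10 ^ 8 * (S ^ 3 * t) := by ring
          omega
        omega
      have q4 : 2 * (64 * S * (4000 * S ^ 2 * R)) ≤ a ^ 2 := by
        calc 2 * (64 * S * (4000 * S ^ 2 * R)) ≤ 2 * (64 * S * a) := by gcongr
          _ = (128 * S) * a := by ring
          _ ≤ a * a := Nat.mul_le_mul_right _ (by omega)
          _ = a ^ 2 := by ring
      omega
    have p3 : S * a * (16 * h) ≤ S * a * g := by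
      calc S * a * (16 * h) = S * (16 * (h * a)) := by ring
        _ ≤ a ^ 2 := p2
        _ = a * a := by ring
        _ ≤ a * (S * g) := Nat.mul_le_mul_left _ ag
        _ = S * a * g := by ring
    exact Nat.le_of_mul_le_mul_left p3 (Nat.mul_pos (by omega) hap)
  -- n
  obtain ⟨n, hn⟩ : ∃ n, n = a + g - 2 * h - 9 * (κ + 1) := ⟨_, rfl⟩
  have n1 : n + 2 * h + 9 * (κ + 1) = a + g := by omega
  have n2 : 2 * a + g ≤ 2 * n := by omega
  have n3 : n ≤ a + g := by omega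
  have n4 : n ≤ S * g := n3.trans hg'
  have n5 : n ≤ S * a := n3.trans hb
  -- X
  obtain ⟨X, hX⟩ : ∃ X, X = t / (64000 * S ^ 5 * a) := ⟨_, rfl⟩
  have hMp : 0 < 64000 * S ^ 5 * a := by have := hS1 5; positivity
  have x1 : (64000 * S ^ 5 * a) * X ≤ t := by rw [hX]; exact Nat.mul_div_le _ _
  have x2 : 1 ≤ X := by
    rw [hX, Nat.le_div_iff_mul_le hMp, one_mul]
    calc 64000 * S ^ 5 * a ≤ 10 ^ 6 * S ^ 5 * a := by gcongr; norm_num
      _ ≤ t := ht1
  have x3 : t ≤ 128000 * S ^ 5 * a * X := by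
    have p1 := Nat.div_add_mod t (64000 * S ^ 5 * a)
    have p2 := Nat.mod_lt t hMp
    rw [← hX] at p1
    have p3 : (64000 * S ^ 5 * a) * (X + 1) ≤ (64000 * S ^ 5 * a) * (2 * X) :=
      Nat.mul_le_mul_left _ (by omega)
    have p4 : (64000 * S ^ 5 * a) * (X + 1) = (64000 * S ^ 5 * a) * X + 64000 * S ^ 5 * a := by
      ring
    have p5 : (64000 * S ^ 5 * a) * (2 * X) = 128000 * S ^ 5 * a * X := by ring
    omega
  -- m
  obtain ⟨m, hm⟩ : ∃ m, m = 8000 * S ^ 3 := ⟨_, rfl⟩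
  have m1 : 2 ≤ m := by have := hS1 3; omega
  have m2 : m * (X + 1) + X ≤ 3 * m * X := by
    have : m ≤ m * X := Nat.le_mul_of_pos_right _ (by omega)
    have q1 : X ≤ m * X := Nat.le_mul_of_pos_left _ (by omega)
    have q2 : m * (X + 1) = m * X + m := by ring
    have q3 : 3 * m * X = 3 * (m * X) := by ring
    omega
  have m3 : m * (X + 1) + 1 ≤ 3 * m * X := by omega
  have m4 : 2 * (3 * m * X * a * S) ≤ t := by
    have q1 : 2 * (3 * m * X * a * S) = 48000 * S ^ 4 * a * X := by rw [hm]; ring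
    have q2 : 48000 * S ^ 4 * a * X ≤ 64000 * S ^ 5 * a * X := by
      have : S ^ 4 ≤ S ^ 5 := Nat.pow_le_pow_right (by omega) (by norm_num)
      gcongr
      norm_num
    omega
  refine ⟨e, n, m, X, h, R, κ + 1, ?_, by omega, x2, by rw [hh]; exact Nat.succ_pos _, by omega, n1,
    k1, ?_, ?_, h1, ?_, ?_, x3⟩
  · have : e ≤ 1000 * S ^ 2 * e := Nat.le_mul_of_pos_left _ hQp
    have q : 2 * e ≤ 1000 * S ^ 2 * e := by
      have := hS1 2
      exact Nat.mul_le_mul_right _ (by omega)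
    omega
  · calc (m * (X + 1) + X) * n ≤ (3 * m * X) * (S * a) := Nat.mul_le_mul m2 n5
      _ = 3 * m * X * a * S := by ring
      _ ≤ t := by omega
  · rw [Nat.le_div_iff_mul_le hap]
    have hnp : 0 < n := by omega
    have q1 : (t / n) * n ≤ t := Nat.div_mul_le_self _ _
    have q2 : n * ((t / n + m * (X + 1) + 1) * a) ≤ n * t := by
      have q3 : n * ((t / n + m * (X + 1) + 1) * a)
          = (t / n) * n * a + n * ((m * (X + 1) + 1) * a) := by ring
      have q4 : (t / n) * n * a ≤ t * a := Nat.mul_le_mul_right _ q1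
      have q5 : n * ((m * (X + 1) + 1) * a) ≤ (S * g) * ((3 * m * X) * a) := by gcongr
      have q6 : 2 * ((S * g) * ((3 * m * X) * a)) ≤ t * g := by
        calc 2 * ((S * g) * ((3 * m * X) * a)) = 2 * (3 * m * X * a * S) * g := by ring
          _ ≤ t * g := Nat.mul_le_mul_right _ m4
      have q7 : t * (2 * a + g) ≤ t * (2 * n) := Nat.mul_le_mul_left _ n2
      have q8 : t * (2 * a + g) = 2 * (t * a) + t * g := by ring
      have q9 : t * (2 * n) = 2 * (n * t) := by ring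
      omega
    exact Nat.le_of_mul_le_mul_left q2 hnp
  · have q1 : 50000 * (t / a) ≤ e := by
      have p1 : (t / a) * a ≤ t := Nat.div_mul_le_self _ _
      have p2 : a * (10 ^ 8 * S ^ 8 * (t / a)) ≤ a * a := by
        calc a * (10 ^ 8 * S ^ 8 * (t / a)) = 10 ^ 8 * S ^ 8 * ((t / a) * a) := by ring
          _ ≤ 10 ^ 8 * S ^ 8 * t := Nat.mul_le_mul_left _ p1
          _ ≤ a ^ 2 := ht2
          _ = a * a := by ring
      have p3 := Nat.le_of_mul_le_mul_left p2 hap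
      have p4 : 2000 * S ^ 2 * (50000 * (t / a)) ≤ 2000 * S ^ 2 * e := by
        have : S ^ 2 ≤ S ^ 8 := Nat.pow_le_pow_right (by omega) (by norm_num)
        calc 2000 * S ^ 2 * (50000 * (t / a)) = 10 ^ 8 * S ^ 2 * (t / a) := by ring
          _ ≤ 10 ^ 8 * S ^ 8 * (t / a) := by gcongr
          _ ≤ a := p3
          _ ≤ 2000 * S ^ 2 * e := e4
      exact Nat.le_of_mul_le_mul_left p4 (by have := hS1 2; omega)
    have q2 : 4 * (n / m) ≤ e := by
      have p1 : m * (n / m) ≤ n := Nat.mul_div_le _ _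
      have p2 : 2000 * S ^ 3 * (4 * (n / m)) ≤ 2000 * S ^ 3 * e := by
        calc 2000 * S ^ 3 * (4 * (n / m)) = m * (n / m) := by rw [hm]; ring
          _ ≤ n := p1
          _ ≤ S * a := n5
          _ ≤ S * (2000 * S ^ 2 * e) := Nat.mul_le_mul_left _ e4
          _ = 2000 * S ^ 3 * e := by ring
      exact Nat.le_of_mul_le_mul_left p2 (by have := hS1 3; omega)
    omega
  · -- the row condition, multiplied by 1000 S
    have hSp : 0 < 1000 * S := by omega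
    have q1 : 1000 * S * (n * (n / m)) ≤ a ^ 2 := by
      have p1 : m * (n / m) ≤ n := Nat.mul_div_le _ _
      have p2 : S ^ 2 * (8000 * S * (n * (n / m))) ≤ S ^ 2 * a ^ 2 := by
        calc S ^ 2 * (8000 * S * (n * (n / m))) = n * (m * (n / m)) := by rw [hm]; ring
          _ ≤ n * n := Nat.mul_le_mul_left _ p1
          _ ≤ (S * a) * (S * a) := Nat.mul_le_mul n5 n5
          _ = S ^ 2 * a ^ 2 := by ring
      have p3 := Nat.le_of_mul_le_mul_left p2 (by have := hS1 2; omega)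
      have p4 : 1000 * S * (n * (n / m)) ≤ 8000 * S * (n * (n / m)) := by gcongr; norm_num
      omega
    have q2 : 2 * e * h ≤ 16 * t + 16 * a := by
      have p1 : R ≤ a := by
        have : R ≤ 4000 * S ^ 2 * R := Nat.le_mul_of_pos_left _ (by have := hS1 2; omega)
        omega
      calc 2 * e * h ≤ 2 * (8 * R) * h := by gcongr
        _ = 16 * (h * R) := by ring
        _ ≤ 16 * (t + R) := Nat.mul_le_mul_left _ h2
        _ ≤ 16 * t + 16 * a := by omega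
    have q3 : 1000 * S * (17 * t) ≤ a ^ 2 := by
      calc 1000 * S * (17 * t) = 17000 * S * t := by ring
        _ ≤ 10 ^ 8 * S ^ 3 * t := by
          have : S ≤ S ^ 3 := by
            calc S = S ^ 1 := (pow_one S).symm
              _ ≤ S ^ 3 := Nat.pow_le_pow_right (by omega) (by norm_num)
          gcongr
          norm_num
        _ ≤ a ^ 2 := t8
    have q4 : (κ + 1) * (5 * a - 6) ≤ 5 * a * κ + 5 * a := by
      calc (κ + 1) * (5 * a - 6) ≤ (κ + 1) * (5 * a) := by gcongr; omega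
        _ = 5 * a * κ + 5 * a := by ring
    have q5 : 1000 * S * (5 * a * κ) ≤ 10 * a ^ 2 := by
      have p1 : S * (1000 * S * κ) ≤ S * (2 * a) := by
        calc S * (1000 * S * κ) = 1000 * S ^ 2 * κ := by ring
          _ ≤ 2 * (a + g) := k2
          _ ≤ 2 * (S * a) := Nat.mul_le_mul_left _ hb
          _ = S * (2 * a) := by ring
      have p2 := Nat.le_of_mul_le_mul_left p1 (by omega)
      calc 1000 * S * (5 * a * κ) = 5 * a * (1000 * S * κ) := by ring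
        _ ≤ 5 * a * (2 * a) := Nat.mul_le_mul_left _ p2
        _ = 10 * a ^ 2 := by ring
    have q6 : 1000 * S * (30 * a) ≤ a ^ 2 := by
      calc 1000 * S * (30 * a) = (30000 * S) * a := by ring
        _ ≤ a * a := Nat.mul_le_mul_right _ (by omega)
        _ = a ^ 2 := by ring
    have q7 : 1000 * S * (n * (n / m) + 2 * e * h + l2 + (κ + 1) * (5 * a - 6) + 9 * a)
        ≤ 1000 * S * l1 := by
      calc 1000 * S * (n * (n / m) + 2 * e * h + l2 + (κ + 1) * (5 * a - 6) + 9 * a)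
          ≤ 1000 * S * (n * (n / m) + (16 * t + 16 * a) + t + (5 * a * κ + 5 * a) + 9 * a) := by
            gcongr
        _ = 1000 * S * (n * (n / m)) + 1000 * S * (17 * t) + 1000 * S * (5 * a * κ)
            + 1000 * S * (30 * a) := by ring
        _ ≤ a ^ 2 + a ^ 2 + 10 * a ^ 2 + a ^ 2 := by omega
        _ ≤ 1000 * a ^ 2 := by omega
        _ ≤ 1000 * (S * l1) := Nat.mul_le_mul_left _ hl1
        _ = 1000 * S * l1 := by ring
    exact Nat.le_of_mul_le_mul_left q7 hSp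

/-- Stirling's lower bound. -/
theorem log_choose_le (n M : ℕ) (hn : 0 < n) (hM : n ≤ M) :
    Real.log (M.choose n : ℕ) ≤ n * (1 + Real.log ((M : ℝ) / n)) := by
  have hn' : (0 : ℝ) < n := by exact_mod_cast hn
  have hM' : (0 : ℝ) < M := by exact_mod_cast hn.trans_le hM
  have h1 : ((M.choose n : ℕ) : ℝ) ≤ (M : ℝ) ^ n / (n.factorial : ℝ) := Nat.choose_le_pow_div n M
  have h2 : (n : ℝ) ^ n / (n.factorial : ℝ) ≤ Real.exp n :=
    Real.pow_div_factorial_le_exp (n : ℝ) hn'.le n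
  have h3 : (M : ℝ) ^ n / (n.factorial : ℝ) = ((M : ℝ) / n) ^ n * ((n : ℝ) ^ n / (n.factorial : ℝ)) := by
    rw [div_pow]; field_simp
  have h4 : ((M.choose n : ℕ) : ℝ) ≤ ((M : ℝ) / n) ^ n * Real.exp n := by
    rw [h3] at h1
    exact h1.trans (mul_le_mul_of_nonneg_left h2 (by positivity))
  have h5 : (0 : ℝ) < ((M.choose n : ℕ) : ℝ) := by exact_mod_cast Nat.choose_pos hM
  calc Real.log (M.choose n : ℕ) ≤ Real.log (((M : ℝ) / n) ^ n * Real.exp n) :=
        Real.log_le_log h5 h4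
    _ = n * (1 + Real.log ((M : ℝ) / n)) := by
        rw [Real.log_mul (by positivity) (by positivity), Real.log_pow, Real.log_exp]; ring

/-- The growth inequality. -/
theorem grow (a b S t n X : ℕ) (hS : 2 ≤ S) (ha : 10 ^ 14 * S ^ 13 ≤ a) (hab : a < b)
    (hb : b ≤ S * a) (ht1 : 10 ^ 6 * S ^ 5 * a ≤ t) (hn : a + b ≤ 2 * n) (hnb : n ≤ b)
    (hX : 1 ≤ X) (htX : t ≤ 128000 * S ^ 5 * a * X)
    (hgain : (b : ℝ) * (12 * Real.log S + 34) ≤ ((b : ℝ) - a) * Real.log (t / a)) :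
    (a + b).choose a * (a + t - 1).choose t * (a * b + 1) ^ 3 ≤ X ^ n := by
  have hS1 : ∀ k : ℕ, 1 ≤ S ^ k := fun k => Nat.one_le_pow _ _ (by omega)
  have hSS : S ≤ S ^ 13 := by
    calc S = S ^ 1 := (pow_one S).symm
      _ ≤ S ^ 13 := Nat.pow_le_pow_right (by omega) (by norm_num)
  have haS : 10 ^ 14 * S ≤ a := (Nat.mul_le_mul_left _ hSS).trans ha
  have hap : 0 < a := by omega
  have hA : (0 : ℝ) < a := by exact_mod_cast hap
  have hSr : (2 : ℝ) ≤ S := by exact_mod_cast hS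
  have hta : a ≤ t := by
    have : a ≤ 10 ^ 6 * S ^ 5 * a := Nat.le_mul_of_pos_left _ (by have := hS1 5; positivity)
    omega
  have htr : (a : ℝ) ≤ t := by exact_mod_cast hta
  have hT : (0 : ℝ) < t := by linarith
  have hbr : (a : ℝ) < b := by exact_mod_cast hab
  have hbSr : (b : ℝ) ≤ S * a := by exact_mod_cast hb
  have hXr : (1 : ℝ) ≤ X := by exact_mod_cast hX
  have hnr : (a : ℝ) + b ≤ 2 * n := by exact_mod_cast hn
  have hnbr : (n : ℝ) ≤ b := by exact_mod_cast hnb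
  have lS : 0 ≤ Real.log S := Real.log_nonneg (by linarith)
  have l2 : Real.log 2 ≤ 0.6931471808 := Real.log_two_lt_d9.le
  have lT : 0 ≤ Real.log ((t : ℝ) / a) := Real.log_nonneg (by rw [le_div_iff₀ hA]; linarith)
  -- first binomial
  have c1 : Real.log ((a + b).choose a : ℕ) ≤ a * (2 + Real.log S) := by
    have h1 := log_choose_le a (a + b) hap (by omega)
    have h2 : Real.log (((a + b : ℕ) : ℝ) / a) ≤ Real.log (2 * S) := by
      apply Real.log_le_log (by positivity)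
      rw [div_le_iff₀ hA]
      push_cast
      nlinarith
    rw [Real.log_mul (by norm_num) (by positivity)] at h2
    refine h1.trans (mul_le_mul_of_nonneg_left ?_ hA.le)
    linarith
  -- second binomial
  have c2 : Real.log ((a + t - 1).choose t : ℕ) ≤ a * (2 + Real.log ((t : ℝ) / a)) := by
    have h0 : (a + t - 1).choose t ≤ (a + t).choose a := by
      calc (a + t - 1).choose t ≤ (a + t).choose t := Nat.choose_le_choose _ (by omega)
        _ = (a + t).choose a := by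
          rw [← Nat.choose_symm_of_eq_add (show a + t = t + a by omega)]
    have h1 := log_choose_le a (a + t) hap (by omega)
    have h2 : Real.log (((a + t : ℕ) : ℝ) / a) ≤ Real.log (2 * ((t : ℝ) / a)) := by
      apply Real.log_le_log (by positivity)
      rw [div_le_iff₀ hA]
      push_cast
      have : 2 * ((t : ℝ) / a) * a = 2 * t := by field_simp
      rw [this]
      linarith
    rw [Real.log_mul (by norm_num) (by positivity)] at h2
    have h3 : Real.log ((a + t - 1).choose t : ℕ) ≤ Real.log ((a + t).choose a : ℕ) := by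
      apply Real.log_le_log
      · exact_mod_cast Nat.choose_pos (by omega)
      · exact_mod_cast h0
    refine h3.trans (h1.trans (mul_le_mul_of_nonneg_left ?_ hA.le))
    linarith
  -- the third factor
  have c3 : Real.log ((a : ℝ) * b + 1) ≤ a / 3 := by
    have h1 : (a : ℝ) * b + 1 ≤ (a : ℝ) ^ 3 := by
      have h2 : (a : ℝ) * b ≤ S * (a : ℝ) ^ 2 := by nlinarith
      have h3 : (10 : ℝ) ^ 14 * S ≤ a := by exact_mod_cast haS
      have h4 : (1 : ℝ) ≤ a := by exact_mod_cast hap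
      nlinarith [sq_nonneg (a : ℝ), mul_nonneg (sq_nonneg (a : ℝ)) (by linarith : (0:ℝ) ≤ a - 10 ^ 14 * S)]
    have h5 : Real.log ((a : ℝ) * b + 1) ≤ 3 * Real.log a := by
      rw [← Real.log_rpow hA]
      refine Real.log_le_log (by positivity) (h1.trans (le_of_eq ?_))
      norm_num
    have h6 : Real.log a ≤ 2 * Real.sqrt a := by
      have h7 : Real.log (Real.sqrt a) ≤ Real.sqrt a := (Real.log_le_sub_one_of_pos (Real.sqrt_pos.2 hA)).trans (by linarith)
      rw [Real.log_sqrt hA.le] at h7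
      linarith
    have h8 : 18 * Real.sqrt a ≤ a := by
      have h9 : (18 : ℝ) ≤ Real.sqrt a := by
        apply Real.le_sqrt_of_sq_le
        have h3 : (10 : ℝ) ^ 14 * S ≤ a := by exact_mod_cast haS
        nlinarith
      nlinarith [Real.mul_self_sqrt hA.le]
    linarith
  -- the right side
  have c4 : Real.log ((t : ℝ) / a) ≤ Real.log X + (12 + 5 * Real.log S) := by
    have h1 : (t : ℝ) / a ≤ (128000 * (S : ℝ) ^ 5) * X := by
      rw [div_le_iff₀ hA]
      have : (t : ℝ) ≤ 128000 * (S : ℝ) ^ 5 * a * X := by exact_mod_cast htX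
      linarith
    have h2 := Real.log_le_log (by positivity) h1
    rw [Real.log_mul (by positivity) (by positivity), Real.log_mul (by norm_num) (by positivity),
      Real.log_pow] at h2
    have h3 : Real.log 128000 ≤ 12 := by
      rw [Real.log_le_iff_le_exp (by norm_num)]
      have : Real.exp 12 = Real.exp 1 ^ 12 := by rw [← Real.exp_nat_mul]; norm_num
      rw [this]
      have h4 : (2.7 : ℝ) ≤ Real.exp 1 := by
        have := Real.exp_one_gt_d9
        linarith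
      calc (128000 : ℝ) ≤ 2.7 ^ 12 := by norm_num
        _ ≤ Real.exp 1 ^ 12 := pow_le_pow_left₀ (by norm_num) h4 12
    push_cast at h2
    linarith
  have lX : 0 ≤ Real.log X := Real.log_nonneg hXr
  have hfin : Real.log (((a + b).choose a * (a + t - 1).choose t * (a * b + 1) ^ 3 : ℕ) : ℝ)
      ≤ Real.log ((X ^ n : ℕ) : ℝ) := by
    have p1 : (0 : ℝ) < (((a + b).choose a : ℕ) : ℝ) := by
      exact_mod_cast Nat.choose_pos (by omega)
    have p2 : (0 : ℝ) < (((a + t - 1).choose t : ℕ) : ℝ) := by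
      exact_mod_cast Nat.choose_pos (by omega)
    have p3 : (0 : ℝ) < (a : ℝ) * b + 1 := by positivity
    push_cast
    rw [Real.log_mul (by positivity) (by positivity), Real.log_mul p1.ne' p2.ne', Real.log_pow,
      Real.log_pow]
    push_cast
    have q1 : (n : ℝ) * (Real.log ((t : ℝ) / a) - (12 + 5 * Real.log S)) ≤ n * Real.log X :=
      mul_le_mul_of_nonneg_left (by linarith) (Nat.cast_nonneg _)
    have q2 : ((a : ℝ) + b) / 2 * Real.log ((t : ℝ) / a) ≤ n * Real.log ((t : ℝ) / a) :=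
      mul_le_mul_of_nonneg_right (by linarith) lT
    have q3 : (n : ℝ) * (12 + 5 * Real.log S) ≤ b * (12 + 5 * Real.log S) :=
      mul_le_mul_of_nonneg_right hnbr (by linarith)
    have q4 : (a : ℝ) * Real.log S ≤ b * Real.log S := mul_le_mul_of_nonneg_right hbr.le lS
    nlinarith
  have := (Real.log_le_log_iff (by
    have p1 : 0 < (a + b).choose a := Nat.choose_pos (by omega)
    have p2 : 0 < (a + t - 1).choose t := Nat.choose_pos (by omega)
    exact_mod_cast (by positivity : 0 < (a + b).choose a * (a + t - 1).choose t * (a * b + 1) ^ 3))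
    (by exact_mod_cast (by positivity : 0 < X ^ n))).1 hfin
  exact_mod_cast this


open Vale.Agent.P181.H280 (plethMult)
open Vale.Agent.P181.TL (dn2)

/-- `TwoLongN` for all pairs `a < b`: the gain `(b - a) log (D_2 / a)` has to beat
`b log log a`. -/
def TwoLongP : Prop := ∀ (C₀ : ℝ) (c₀ : ℕ), 0 < C₀ → ∃ (C : ℝ) (c : ℕ), 0 < C ∧
  ∀ (a b k : ℕ) (lam : Fin (k + 3) → ℕ), a < b → lam 1 ≤ lam 0 → ∑ i, lam i = a * b →
  (b : ℝ) ≤ C₀ * (1 + Real.log a) ^ c₀ * a →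
  (a : ℝ) ^ 2 ≤ C₀ * (1 + Real.log a) ^ c₀ * lam 1 →
  C * b * Real.log (2 + Real.log a) ≤ ((b : ℝ) - a) * Real.log ((dn2 lam : ℝ) / a) →
  C * (1 + Real.log a) ^ c * dn2 lam ≤ (a : ℝ) ^ 2 →
  plethMult a b (k + 3) lam ≤ plethMult b a (k + 3) lam

/-- The plug into the core. -/
theorem step {a₀ : ℕ} (hC : ∀ (a b k e n m X h R K : ℕ) (lam : Fin (k + 3) → ℕ),
      lam 1 ≤ lam 0 → ∑ i, lam i = a * b → a₀ + e ≤ a → 12 < a → 1 ≤ m → 1 ≤ X → 1 ≤ h → a ≤ n →
      n + 2 * h + 9 * K = b → e * b ≤ K * (a - 12) →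
      (m * (X + 1) + X) * n ≤ dn2 lam → dn2 lam / n + m * (X + 1) + 1 ≤ dn2 lam / a →
      lam 2 ≤ h * R → dn2 lam / a + n / m + 2 + R ≤ e →
      n * (n / m) + 2 * e * h + lam 2 + K * (5 * a - 6) + 9 * a ≤ lam 1 →
      (a + b).choose a * (a + dn2 lam - 1).choose (dn2 lam) * (a * b + 1) ^ 3 ≤ X ^ n →
      plethMult a b (k + 3) lam ≤ plethMult b a (k + 3) lam)
    (a b k S : ℕ) (lam : Fin (k + 3) → ℕ) (hab : a < b) (h10 : lam 1 ≤ lam 0)
    (hsum : ∑ i, lam i = a * b) (hS2n : 2 ≤ S) (n3 : 10 ^ 14 * S ^ 13 ≤ a) (n4 : b ≤ S * (b - a))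
    (n5 : b ≤ S * a) (n6 : a ^ 2 ≤ S * lam 1) (n7 : 2 * a₀ ≤ a)
    (n1 : 10 ^ 6 * S ^ 5 * a ≤ dn2 lam) (n2 : 10 ^ 8 * S ^ 8 * dn2 lam ≤ a ^ 2)
    (hg : (b : ℝ) * (12 * Real.log S + 34) ≤ ((b : ℝ) - a) * Real.log ((dn2 lam : ℝ) / a)) :
    plethMult a b (k + 3) lam ≤ plethMult b a (k + 3) lam := by
  have n8 : lam 2 ≤ dn2 lam := by
    unfold dn2
    exact Finset.single_le_sum (f := fun i : Fin (k + 1) => lam i.succ.succ)
      (fun i _ => Nat.zero_le _) (Finset.mem_univ (0 : Fin (k + 1)))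
  obtain ⟨e, n, m, X, h, R, K, p1, p2, p3, p4, p5, p6, p7, p8, p9, p10, p11, p12, p13⟩ :=
    pick a b S (dn2 lam) (lam 1) (lam 2) hS2n n3 hab n5 n4 n6 n1 n2 n8
  have ha12 : 12 < a := by
    have : 10 ^ 14 ≤ 10 ^ 14 * S ^ 13 := Nat.le_mul_of_pos_right _ (by positivity)
    omega
  have p14 := grow a b S (dn2 lam) n X hS2n n3 hab n5 n1 p5 (by omega) p3 p13 hg
  exact hC a b k e n m X h R K lam h10 hsum (by omega) ha12 p2 p3 p4 (by omega) p6 p7 p8 p9 p10
    p11 p12 p14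

theorem log_ten : Real.log ((10 : ℝ) ^ 6) ≤ 16 := by
  rw [Real.log_le_iff_le_exp (by norm_num)]
  have : Real.exp 16 = Real.exp 1 ^ 16 := by rw [← Real.exp_nat_mul]; norm_num
  rw [this]
  have h4 : (2.7 : ℝ) ≤ Real.exp 1 := by
    have := Real.exp_one_gt_d9
    linarith
  calc (10 : ℝ) ^ 6 ≤ 2.7 ^ 16 := by norm_num
    _ ≤ Real.exp 1 ^ 16 := pow_le_pow_left₀ (by norm_num) h4 16

/-- The number `S`. -/
theorem exS (C₀ B C L l : ℝ) (c₀ a₀ : ℕ) (hC0 : 0 < C₀) (hB : B = C₀ + 5)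
    (hCd : C = 12 * (c₀ + 1) + 24 * (B + 1) + 68 + 4 * a₀ + 10 ^ 8 * (B + 1) ^ 8)
    (hL1 : 1 ≤ L) (hl2 : 1 / 2 ≤ l) (hLl : Real.log L ≤ l) :
    ∃ S : ℕ, (5 : ℝ) ≤ S ∧ C₀ * L ^ c₀ ≤ S ∧ L ≤ S ∧ 12 * Real.log S + 34 ≤ C * l ∧
      (10 : ℝ) ^ 8 * (S : ℝ) ^ 8 ≤ C * L ^ (8 * (c₀ + 1)) := by
  have hB5 : 5 ≤ B := by linarith
  have hB8 : (0 : ℝ) ≤ 10 ^ 8 * (B + 1) ^ 8 := by positivity
  have hc0 : (0 : ℝ) ≤ c₀ := Nat.cast_nonneg _
  have ha0' : (0 : ℝ) ≤ a₀ := Nat.cast_nonneg _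
  obtain ⟨S, hS⟩ : ∃ S : ℕ, S = ⌈B * L ^ (c₀ + 1)⌉₊ := ⟨_, rfl⟩
  have hLp : ∀ j : ℕ, 1 ≤ L ^ j := fun j => one_le_pow₀ hL1
  have hBL : B ≤ B * L ^ (c₀ + 1) := le_mul_of_one_le_right (by linarith) (hLp _)
  have hS1 : B * L ^ (c₀ + 1) ≤ S := by rw [hS]; exact Nat.le_ceil _
  have hS2 : (S : ℝ) ≤ (B + 1) * L ^ (c₀ + 1) := by
    have h1 := Nat.ceil_lt_add_one (show 0 ≤ B * L ^ (c₀ + 1) by linarith)
    rw [← hS] at h1
    have := hLp (c₀ + 1)
    linarith
  have hS5 : (5 : ℝ) ≤ S := by linarith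
  have hSp : (0 : ℝ) < S := by linarith
  refine ⟨S, hS5, ?_, ?_, ?_, ?_⟩
  · have h1 : L ^ c₀ ≤ L ^ (c₀ + 1) := pow_le_pow_right₀ hL1 (by omega)
    have h2 : C₀ * L ^ c₀ ≤ B * L ^ (c₀ + 1) := by
      apply mul_le_mul (by linarith) h1 (by positivity) (by linarith)
    linarith
  · have h1 : L ^ 1 ≤ L ^ (c₀ + 1) := pow_le_pow_right₀ hL1 (by omega)
    rw [pow_one] at h1
    have h2 : L ^ (c₀ + 1) ≤ B * L ^ (c₀ + 1) := le_mul_of_one_le_left (by positivity) (by linarith)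
    linarith
  · have h1 : Real.log S ≤ Real.log (B + 1) + (c₀ + 1) * Real.log L := by
      have := Real.log_le_log hSp hS2
      rw [Real.log_mul (by linarith) (by positivity), Real.log_pow] at this
      push_cast at this
      exact this
    have h3 : Real.log (B + 1) ≤ B + 1 := by
      have := Real.log_le_sub_one_of_pos (show 0 < B + 1 by linarith)
      linarith
    have h4 : ((c₀ : ℝ) + 1) * Real.log L ≤ (c₀ + 1) * l :=
      mul_le_mul_of_nonneg_left hLl (by linarith)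
    have h5 : 12 * (B + 1) + 34 ≤ (24 * (B + 1) + 68) * l := by nlinarith
    have h6 : C * l = 12 * ((c₀ + 1) * l) + (24 * (B + 1) + 68) * l
        + (4 * a₀ + 10 ^ 8 * (B + 1) ^ 8) * l := by rw [hCd]; ring
    have h7 : 0 ≤ (4 * (a₀ : ℝ) + 10 ^ 8 * (B + 1) ^ 8) * l := by positivity
    linarith
  · have h1 : (S : ℝ) ^ 8 ≤ (B + 1) ^ 8 * L ^ (8 * (c₀ + 1)) := by
      calc (S : ℝ) ^ 8 ≤ ((B + 1) * L ^ (c₀ + 1)) ^ 8 := pow_le_pow_left₀ hSp.le hS2 8
        _ = (B + 1) ^ 8 * L ^ (8 * (c₀ + 1)) := by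
          rw [mul_pow, ← pow_mul, mul_comm (c₀ + 1) 8]
    calc (10 : ℝ) ^ 8 * (S : ℝ) ^ 8 ≤ 10 ^ 8 * ((B + 1) ^ 8 * L ^ (8 * (c₀ + 1))) :=
          mul_le_mul_of_nonneg_left h1 (by norm_num)
      _ = (10 ^ 8 * (B + 1) ^ 8) * L ^ (8 * (c₀ + 1)) := by ring
      _ ≤ C * L ^ (8 * (c₀ + 1)) := by
        apply mul_le_mul_of_nonneg_right _ (by positivity)
        rw [hCd]
        linarith

/-- The consequences of the gain hypothesis. -/
theorem cons (a b t S c a₀ : ℕ) (C L l T : ℝ) (hab : a < b) (hL : L = 1 + Real.log a)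
    (hl2 : 1 / 2 ≤ l) (hC68 : 68 ≤ C) (hCa : 4 * (a₀ : ℝ) ≤ C)
    (hG : C * b * l ≤ ((b : ℝ) - a) * Real.log T) (hT : T = (t : ℝ) / a)
    (hD : C * L ^ c * t ≤ (a : ℝ) ^ 2) (hS5 : (5 : ℝ) ≤ S) (hSL : L ≤ S)
    (hlS : 12 * Real.log S + 34 ≤ C * l) (h8 : (10 : ℝ) ^ 8 * (S : ℝ) ^ 8 ≤ C * L ^ c) :
    10 ^ 6 * S ^ 5 * a ≤ t ∧ 10 ^ 8 * S ^ 8 * t ≤ a ^ 2 ∧ 10 ^ 14 * S ^ 13 ≤ a ∧
      b ≤ S * (b - a) ∧ 2 * a₀ ≤ a ∧
      (b : ℝ) * (12 * Real.log S + 34) ≤ ((b : ℝ) - a) * Real.log ((t : ℝ) / a) := by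
  have hSp : (0 : ℝ) < S := by linarith
  have hSpos : 0 < S := by exact_mod_cast hSp
  have habr : (a : ℝ) < b := by exact_mod_cast hab
  have ha0r : (0 : ℝ) ≤ a := Nat.cast_nonneg _
  have hbp : (0 : ℝ) < b := by linarith
  have hT0 : 0 ≤ T := by rw [hT]; positivity
  have hCl0 : 0 ≤ C * l := by nlinarith
  have hlT : C * l ≤ Real.log T := by
    by_contra hc
    rw [not_le] at hc
    have h1 : ((b : ℝ) - a) * Real.log T < (b - a) * (C * l) :=
      mul_lt_mul_of_pos_left hc (by linarith)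
    have h2 : ((b : ℝ) - a) * (C * l) ≤ b * (C * l) :=
      mul_le_mul_of_nonneg_right (by linarith) hCl0
    linarith
  have hCl : 34 ≤ C * l := by nlinarith
  have hTp : 0 < T := by
    rcases hT0.lt_or_eq with h | h
    · exact h
    · rw [← h, Real.log_zero] at hlT
      linarith
  have hap : 0 < a := by
    rcases Nat.eq_zero_or_pos a with h | h
    · rw [h, Nat.cast_zero, div_zero] at hT
      rw [hT] at hTp
      exact absurd hTp (lt_irrefl _)
    · exact h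
  have hA : (0 : ℝ) < a := by exact_mod_cast hap
  have hTC : C * l ≤ T := by
    have := Real.log_le_sub_one_of_pos hTp
    linarith
  have hTa : T * a = t := by rw [hT]; field_simp
  have n1 : 10 ^ 6 * S ^ 5 * a ≤ t := by
    have h1 : (10 : ℝ) ^ 6 * (S : ℝ) ^ 5 ≤ T := by
      have h2 : Real.log ((10 : ℝ) ^ 6 * (S : ℝ) ^ 5) ≤ Real.log T := by
        rw [Real.log_mul (by norm_num) (by positivity), Real.log_pow (S : ℝ) 5]
        have h3 := log_ten
        have h5 : 0 ≤ Real.log S := Real.log_nonneg (by linarith)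
        push_cast
        linarith
      exact (Real.log_le_log_iff (by positivity) hTp).1 h2
    have h2 : (10 : ℝ) ^ 6 * (S : ℝ) ^ 5 * a ≤ t := by
      rw [← hTa]
      exact mul_le_mul_of_nonneg_right h1 hA.le
    exact_mod_cast h2
  have n2 : 10 ^ 8 * S ^ 8 * t ≤ a ^ 2 := by
    have h3 : (10 : ℝ) ^ 8 * (S : ℝ) ^ 8 * t ≤ (a : ℝ) ^ 2 :=
      (mul_le_mul_of_nonneg_right h8 (Nat.cast_nonneg _)).trans hD
    exact_mod_cast h3
  have n3 : 10 ^ 14 * S ^ 13 ≤ a := by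
    have h1 : a * (10 ^ 14 * S ^ 13) ≤ a * a := by
      calc a * (10 ^ 14 * S ^ 13) = 10 ^ 8 * S ^ 8 * (10 ^ 6 * S ^ 5 * a) := by ring
        _ ≤ 10 ^ 8 * S ^ 8 * t := Nat.mul_le_mul_left _ n1
        _ ≤ a ^ 2 := n2
        _ = a * a := by ring
    exact Nat.le_of_mul_le_mul_left h1 hap
  have hta : t ≤ a ^ 2 := by
    have : t ≤ 10 ^ 8 * S ^ 8 * t := Nat.le_mul_of_pos_left _ (by positivity)
    omega
  have hTA : T ≤ a := by
    have h1 : (t : ℝ) ≤ (a : ℝ) ^ 2 := by exact_mod_cast hta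
    rw [hT, div_le_iff₀ hA]
    linarith [sq (a : ℝ)]
  have n4 : b ≤ S * (b - a) := by
    have h1 : Real.log T ≤ L := by
      have := Real.log_le_log hTp hTA
      linarith
    have h2 : (b : ℝ) ≤ S * (b - a) := by
      have h3 : (b : ℝ) * 1 ≤ b * (C * l) := mul_le_mul_of_nonneg_left (by linarith) hbp.le
      have h4 : ((b : ℝ) - a) * Real.log T ≤ (b - a) * S :=
        mul_le_mul_of_nonneg_left (by linarith) (by linarith)
      linarith
    rw [← Nat.cast_sub hab.le] at h2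
    exact_mod_cast h2
  have n7 : 2 * a₀ ≤ a := by
    have h0 : (0 : ℝ) ≤ a₀ := Nat.cast_nonneg _
    have h1 : 2 * (a₀ : ℝ) ≤ C * l := by nlinarith
    have h2 : 2 * (a₀ : ℝ) ≤ a := by linarith
    exact_mod_cast h2
  refine ⟨n1, n2, n3, n4, n7, ?_⟩
  rw [← hT]
  have : (b : ℝ) * (12 * Real.log S + 34) ≤ b * (C * l) := mul_le_mul_of_nonneg_left hlS hbp.le
  linarith

theorem twoLongP (hC : CoreN) : TwoLongP := by
  obtain ⟨a₀, hC⟩ := hC
  intro C₀ c₀ hC0
  obtain ⟨B, hB⟩ : ∃ B : ℝ, B = C₀ + 5 := ⟨_, rfl⟩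
  obtain ⟨C, hCd⟩ : ∃ C : ℝ, C = 12 * (c₀ + 1) + 24 * (B + 1) + 68 + 4 * a₀
    + 10 ^ 8 * (B + 1) ^ 8 := ⟨_, rfl⟩
  have hB5 : 5 ≤ B := by linarith
  have hB8 : (0 : ℝ) ≤ 10 ^ 8 * (B + 1) ^ 8 := by positivity
  have hc0 : (0 : ℝ) ≤ c₀ := Nat.cast_nonneg _
  have ha0' : (0 : ℝ) ≤ a₀ := Nat.cast_nonneg _
  have hC68 : 68 ≤ C := by rw [hCd]; linarith
  have hCa : 4 * (a₀ : ℝ) ≤ C := by rw [hCd]; linarith
  refine ⟨C, 8 * (c₀ + 1), by linarith, ?_⟩
  intro a b k lam hab h10 hsum hb hlam hG hD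
  have hla : 0 ≤ Real.log a := Real.log_natCast_nonneg a
  obtain ⟨L, hL⟩ : ∃ L : ℝ, L = 1 + Real.log a := ⟨_, rfl⟩
  have hL1 : 1 ≤ L := by linarith
  obtain ⟨l, hl⟩ : ∃ l : ℝ, l = Real.log (2 + Real.log a) := ⟨_, rfl⟩
  have hl2 : 1 / 2 ≤ l := by
    have h1 : Real.log 2 ≤ Real.log (2 + Real.log a) := Real.log_le_log (by norm_num) (by linarith)
    have h2 := Real.log_two_gt_d9
    rw [hl]
    linarith
  have hLl : Real.log L ≤ l := by
    rw [hl, hL]
    exact Real.log_le_log (by linarith) (by linarith)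
  rw [← hl] at hG
  rw [← hL] at hb hlam hD
  obtain ⟨S, hS5, hSC, hSL, hlS, h8⟩ := exS C₀ B C L l c₀ a₀ hC0 hB hCd hL1 hl2 hLl
  obtain ⟨n1, n2, n3, n4, n7, hg⟩ := cons a b (dn2 lam) S (8 * (c₀ + 1)) a₀ C L l
    ((dn2 lam : ℝ) / a) hab hL hl2 hC68 hCa hG rfl hD hS5 hSL hlS h8
  have hA : (0 : ℝ) ≤ a := Nat.cast_nonneg _
  have n5 : b ≤ S * a := by
    have h1 : (b : ℝ) ≤ S * a := hb.trans (mul_le_mul_of_nonneg_right hSC hA)
    exact_mod_cast h1
  have n6 : a ^ 2 ≤ S * lam 1 := by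
    have h1 : (a : ℝ) ^ 2 ≤ S * lam 1 :=
      hlam.trans (mul_le_mul_of_nonneg_right hSC (Nat.cast_nonneg _))
    exact_mod_cast h1
  have hS2n : 2 ≤ S := by
    have : (2 : ℝ) ≤ S := by linarith
    exact_mod_cast this
  exact step hC a b k S lam hab h10 hsum hS2n n3 n4 n5 n6 n7 n1 n2 hg

end Vale.Agent.P181.H382.H388
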