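import Mathlib

set_option autoImplicit false

namespace Vale.Agent.P181.H382.H388

/-- The numbers of `TwoT`. -/
theorem pickT (a l t r : ℕ) (ha : 10 ^ 13 ≤ a) (hl : l ≤ a ^ 2) (ht : 10 ^ 13 * t ≤ l)
    (hlt : 10 ^ 13 * a ^ 3 ≤ l * t) (hr : r ≤ t) :
    ∃ e n m X h R K : ℕ, 2 * e ≤ a ∧ 1 ≤ m ∧ 1 ≤ X ∧ 1 ≤ h ∧ 3 * a ≤ n ∧
      n + 2 * h + 9 * K = 4 * a ∧ e * (4 * a) ≤ K * (a - 12) ∧ (m * (X + 1) + X) * n ≤ t ∧
      t / n + m * (X + 1) + 1 ≤ t / a ∧ r ≤ h * R ∧ t / a + n / m + 2 + R ≤ e ∧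
      n * (n / m) + 2 * e * h + r + K * (5 * a - 6) + 9 * a ≤ l ∧
      l * t ≤ 1300000 * a ^ 3 * X := by
  have hap : 0 < a := by omega
  have hlp : 0 < l := by
    rcases Nat.eq_zero_or_pos l with h | h
    · rw [h, Nat.zero_mul] at hlt
      have : 0 < 10 ^ 13 * a ^ 3 := by positivity
      omega
    · exact h
  have htp : 0 < t := by
    rcases Nat.eq_zero_or_pos t with h | h
    · rw [h, Nat.mul_zero] at hlt
      have : 0 < 10 ^ 13 * a ^ 3 := by positivity
      omega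
    · exact h
  -- t ≥ 10^13 a, l ≥ 10^13 a
  have hta : 10 ^ 13 * a ≤ t := by
    have h1 : a ^ 2 * (10 ^ 13 * a) ≤ a ^ 2 * t := by
      calc a ^ 2 * (10 ^ 13 * a) = 10 ^ 13 * a ^ 3 := by ring
        _ ≤ l * t := hlt
        _ ≤ a ^ 2 * t := Nat.mul_le_mul_right _ hl
    exact Nat.le_of_mul_le_mul_left h1 (by positivity)
  have hla : 10 ^ 13 * a ≤ l := by omega
  -- e
  obtain ⟨e, he⟩ : ∃ e, e = l / (1000 * a) := ⟨_, rfl⟩
  have e1 : 1000 * a * e ≤ l := by rw [he]; exact Nat.mul_div_le _ _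
  have e2 : l < 1000 * a * (e + 1) := by
    rw [he]
    have h1 := Nat.div_add_mod l (1000 * a)
    have h2 := Nat.mod_lt l (show 0 < 1000 * a by omega)
    rw [Nat.mul_add, mul_one]
    omega
  have e3 : 10 ^ 9 ≤ e := by
    by_contra hc
    have h1 : e + 1 ≤ 10 ^ 9 := by omega
    have h2 : 1000 * a * (e + 1) ≤ 1000 * a * 10 ^ 9 := Nat.mul_le_mul_left _ h1
    omega
  have e4 : l ≤ 2000 * a * e := by
    have h1 : 1000 * a * (e + 1) ≤ 1000 * a * (2 * e) := Nat.mul_le_mul_left _ (by omega)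
    have h2 : 1000 * a * (2 * e) = 2000 * a * e := by ring
    omega
  have e5 : 1000 * e ≤ a := by
    have h1 : a * (1000 * e) ≤ a * a := by
      calc a * (1000 * e) = 1000 * a * e := by ring
        _ ≤ l := e1
        _ ≤ a ^ 2 := hl
        _ = a * a := by ring
    exact Nat.le_of_mul_le_mul_left h1 hap
  -- R
  obtain ⟨R, hR⟩ : ∃ R, R = e / 4 := ⟨_, rfl⟩
  have r1 : 4 * R ≤ e := by omega
  have r2 : e ≤ 8 * R := by omega
  have r3 : 1 ≤ R := by omega
  -- h
  obtain ⟨h, hh⟩ : ∃ h, h = r / R + 1 := ⟨_, rfl⟩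
  have h1 : r ≤ h * R := by
    rw [hh]
    have k1 := Nat.div_add_mod r R
    have k2 := Nat.mod_lt r (show 0 < R by omega)
    have : (r / R + 1) * R = R * (r / R) + R := by ring
    omega
  have h2 : h * R ≤ t + R := by
    rw [hh]
    have k1 := Nat.mul_div_le r R
    have : (r / R + 1) * R = R * (r / R) + R := by ring
    omega
  have hpos : 1 ≤ h := by rw [hh]; exact Nat.succ_pos _
  have hRa : R ≤ a := by omega
  have h3 : 100 * h ≤ a := by
    -- l h ≤ 2000 a e h ≤ 16000 a R h ≤ 16000 a (t + R)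
    have p1 : l * h ≤ 16000 * a * (t + R) := by
      calc l * h ≤ (2000 * a * e) * h := Nat.mul_le_mul_right _ e4
        _ ≤ (2000 * a * (8 * R)) * h := by gcongr
        _ = 16000 * a * (h * R) := by ring
        _ ≤ 16000 * a * (t + R) := Nat.mul_le_mul_left _ h2
    have p2 : l * (100 * h) ≤ l * a := by
      have q1 : t + R ≤ 2 * t := by omega
      have q2 : 16000 * a * (t + R) ≤ 16000 * a * (2 * t) := Nat.mul_le_mul_left _ q1
      calc l * (100 * h) = 100 * (l * h) := by ring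
        _ ≤ 100 * (16000 * a * (2 * t)) := Nat.mul_le_mul_left _ (p1.trans q2)
        _ = (3200000 * t) * a := by ring
        _ ≤ l * a := Nat.mul_le_mul_right _ (by omega)
    exact Nat.le_of_mul_le_mul_left p2 hlp
  -- K
  obtain ⟨κ, hκ⟩ : ∃ κ, κ = e * (4 * a) / (a - 12) := ⟨_, rfl⟩
  have ha12 : 0 < a - 12 := by omega
  have k1 : e * (4 * a) ≤ (κ + 1) * (a - 12) := by
    have p1 := Nat.div_add_mod (e * (4 * a)) (a - 12)
    have p2 := Nat.mod_lt (e * (4 * a)) ha12
    rw [← hκ] at p1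
    have : (κ + 1) * (a - 12) = (a - 12) * κ + (a - 12) := by ring
    omega
  have k2 : κ ≤ 8 * e := by
    have p1 : (a - 12) * κ ≤ e * (4 * a) := by rw [hκ]; exact Nat.mul_div_le _ _
    have p2 : a * κ ≤ a * (8 * e) := by
      have : a ≤ 2 * (a - 12) := by omega
      calc a * κ ≤ 2 * (a - 12) * κ := Nat.mul_le_mul_right _ this
        _ = 2 * ((a - 12) * κ) := by ring
        _ ≤ 2 * (e * (4 * a)) := Nat.mul_le_mul_left _ p1
        _ = a * (8 * e) := by ring
    exact Nat.le_of_mul_le_mul_left p2 hap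
  -- n
  obtain ⟨n, hn⟩ : ∃ n, n = 4 * a - 2 * h - 9 * (κ + 1) := ⟨_, rfl⟩
  have n1 : n + 2 * h + 9 * (κ + 1) = 4 * a := by omega
  have n2 : 3 * a ≤ n := by omega
  have n3 : n ≤ 4 * a := by omega
  -- m
  obtain ⟨m, hm⟩ : ∃ m, m = 40000 * a ^ 2 / l + 1 := ⟨_, rfl⟩
  have m1 : 40000 * a ^ 2 ≤ m * l := by
    have p1 := Nat.div_add_mod (40000 * a ^ 2) l
    have p2 := Nat.mod_lt (40000 * a ^ 2) hlp
    rw [hm]
    have : (40000 * a ^ 2 / l + 1) * l = l * (40000 * a ^ 2 / l) + l := by ring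
    omega
  have m2 : m * l ≤ 40001 * a ^ 2 := by
    have p1 := Nat.mul_div_le (40000 * a ^ 2) l
    rw [hm]
    have : (40000 * a ^ 2 / l + 1) * l = l * (40000 * a ^ 2 / l) + l := by ring
    omega
  have m3 : 2 ≤ m := by
    by_contra hc
    have : m * l ≤ 1 * l := Nat.mul_le_mul_right _ (by omega)
    have hp2 : 0 < a ^ 2 := by positivity
    omega
  -- X
  obtain ⟨X, hX⟩ : ∃ X, X = t / (16 * a * m) := ⟨_, rfl⟩
  have hMp : 0 < 16 * a * m := by positivity
  have x1 : 16 * a * m * X ≤ t := by rw [hX]; exact Nat.mul_div_le _ _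
  have x0 : 16 * a * m ≤ t := by
    have p1 : l * (16 * a * m) ≤ l * t := by
      calc l * (16 * a * m) = 16 * a * (m * l) := by ring
        _ ≤ 16 * a * (40001 * a ^ 2) := Nat.mul_le_mul_left _ m2
        _ = 640016 * a ^ 3 := by ring
        _ ≤ 10 ^ 13 * a ^ 3 := Nat.mul_le_mul_right _ (by norm_num)
        _ ≤ l * t := hlt
    exact Nat.le_of_mul_le_mul_left p1 hlp
  have x2 : 1 ≤ X := by
    rw [hX, Nat.le_div_iff_mul_le hMp, one_mul]
    exact x0
  have x3 : t ≤ 32 * a * m * X := by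
    have p1 := Nat.div_add_mod t (16 * a * m)
    have p2 := Nat.mod_lt t hMp
    rw [← hX] at p1
    have p3 : 16 * a * m * (X + 1) ≤ 16 * a * m * (2 * X) := Nat.mul_le_mul_left _ (by omega)
    have p4 : 16 * a * m * (X + 1) = 16 * a * m * X + 16 * a * m := by ring
    have p5 : 16 * a * m * (2 * X) = 32 * a * m * X := by ring
    omega
  have m4 : m * (X + 1) + X ≤ 3 * m * X := by
    have : m ≤ m * X := Nat.le_mul_of_pos_right _ (by omega)
    have q1 : X ≤ m * X := Nat.le_mul_of_pos_left _ (by omega)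
    have q2 : m * (X + 1) = m * X + m := by ring
    have q3 : 3 * m * X = 3 * (m * X) := by ring
    omega
  have m5 : m * (X + 1) + 1 ≤ 3 * m * X := by omega
  refine ⟨e, n, m, X, h, R, κ + 1, by omega, by omega, x2, hpos, n2, n1, k1, ?_, ?_, h1, ?_, ?_,
    ?_⟩
  · calc (m * (X + 1) + X) * n ≤ (3 * m * X) * (4 * a) := Nat.mul_le_mul m4 n3
      _ = 12 * a * m * X := by ring
      _ ≤ 16 * a * m * X := by gcongr; norm_num
      _ ≤ t := x1
  · rw [Nat.le_div_iff_mul_le hap]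
    have q1 : (t / n) * n ≤ t := Nat.div_mul_le_self _ _
    have q2 : 3 * ((t / n) * a) ≤ t := by
      calc 3 * ((t / n) * a) = (t / n) * (3 * a) := by ring
        _ ≤ (t / n) * n := Nat.mul_le_mul_left _ n2
        _ ≤ t := q1
    have q3 : 16 * ((m * (X + 1) + 1) * a) ≤ 3 * t := by
      calc 16 * ((m * (X + 1) + 1) * a) ≤ 16 * ((3 * m * X) * a) := by gcongr
        _ = 3 * (16 * a * m * X) := by ring
        _ ≤ 3 * t := Nat.mul_le_mul_left _ x1
    have q4 : (t / n + m * (X + 1) + 1) * a = (t / n) * a + (m * (X + 1) + 1) * a := by ring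
    omega
  · have q1 : 1000 * (t / a) ≤ e := by
      have p1 : (t / a) * a ≤ t := Nat.div_mul_le_self _ _
      have p2 : a * (1000 * (t / a)) ≤ a * e := by
        have q : 2000 * (a * (1000 * (t / a))) ≤ 2000 * (a * e) := by
          calc 2000 * (a * (1000 * (t / a))) = 2000000 * ((t / a) * a) := by ring
            _ ≤ 2000000 * t := Nat.mul_le_mul_left _ p1
            _ ≤ l := by omega
            _ ≤ 2000 * a * e := e4
            _ = 2000 * (a * e) := by ring
        exact Nat.le_of_mul_le_mul_left q (by norm_num)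
      exact Nat.le_of_mul_le_mul_left p2 hap
    have q2 : 4 * (n / m) ≤ e := by
      have p1 : m * (n / m) ≤ n := Nat.mul_div_le _ _
      have p2 : 10000 * a * (n / m) ≤ l := by
        have q : a * (4 * (10000 * a * (n / m))) ≤ a * (4 * l) := by
          calc a * (4 * (10000 * a * (n / m))) = (40000 * a ^ 2) * (n / m) := by ring
            _ ≤ (m * l) * (n / m) := Nat.mul_le_mul_right _ m1
            _ = l * (m * (n / m)) := by ring
            _ ≤ l * (4 * a) := Nat.mul_le_mul_left _ (p1.trans n3)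
            _ = a * (4 * l) := by ring
        have := Nat.le_of_mul_le_mul_left q hap
        omega
      have p3 : 2000 * a * (4 * (n / m)) ≤ 2000 * a * e := by
        calc 2000 * a * (4 * (n / m)) = 8000 * a * (n / m) := by ring
          _ ≤ 10000 * a * (n / m) := by gcongr; norm_num
          _ ≤ l := p2
          _ ≤ 2000 * a * e := e4
      exact Nat.le_of_mul_le_mul_left p3 (by omega)
    omega
  · have q1 : 2500 * (n * (n / m)) ≤ l := by
      have p1 : m * (n / m) ≤ n := Nat.mul_div_le _ _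
      have q : 16 * a ^ 2 * (2500 * (n * (n / m))) ≤ 16 * a ^ 2 * l := by
        calc 16 * a ^ 2 * (2500 * (n * (n / m))) = (40000 * a ^ 2) * (n * (n / m)) := by ring
          _ ≤ (m * l) * (n * (n / m)) := Nat.mul_le_mul_right _ m1
          _ = l * (n * (m * (n / m))) := by ring
          _ ≤ l * ((4 * a) * (4 * a)) :=
            Nat.mul_le_mul_left _ (Nat.mul_le_mul n3 (p1.trans n3))
          _ = 16 * a ^ 2 * l := by ring
      exact Nat.le_of_mul_le_mul_left q (by positivity)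
    have q2 : 2 * e * h ≤ 32 * t := by
      calc 2 * e * h ≤ 2 * (8 * R) * h := by gcongr
        _ = 16 * (h * R) := by ring
        _ ≤ 16 * (t + R) := Nat.mul_le_mul_left _ h2
        _ ≤ 32 * t := by omega
    have q4 : (κ + 1) * (5 * a - 6) ≤ 40 * (a * e) + 5 * a := by
      calc (κ + 1) * (5 * a - 6) ≤ (8 * e + 1) * (5 * a) := by gcongr; omega
        _ = 40 * (a * e) + 5 * a := by ring
    have q5 : 1000 * (a * e) ≤ l := by
      calc 1000 * (a * e) = 1000 * a * e := by ring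
        _ ≤ l := e1
    omega
  · calc l * t ≤ l * (32 * a * m * X) := Nat.mul_le_mul_left _ x3
      _ = 32 * a * X * (m * l) := by ring
      _ ≤ 32 * a * X * (40001 * a ^ 2) := Nat.mul_le_mul_left _ m2
      _ = 1280032 * (a ^ 3 * X) := by ring
      _ ≤ 1300000 * (a ^ 3 * X) := Nat.mul_le_mul_right _ (by norm_num)
      _ = 1300000 * a ^ 3 * X := by ring

theorem poly_le (a : ℕ) (ha : 1 ≤ a) : (a * (4 * a) + 1) ^ 3 ≤ 8000 ^ a := by
  have h1 : a ≤ 2 ^ a := Nat.lt_two_pow_self.le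
  have h2 : a * (4 * a) + 1 ≤ 5 * a ^ 2 := by nlinarith
  calc (a * (4 * a) + 1) ^ 3 ≤ (5 * a ^ 2) ^ 3 := Nat.pow_le_pow_left h2 3
    _ = 5 ^ 3 * a ^ 6 := by ring
    _ ≤ 125 ^ a * (2 ^ a) ^ 6 := by
      apply Nat.mul_le_mul
      · calc 5 ^ 3 = 125 ^ 1 := by norm_num
          _ ≤ 125 ^ a := Nat.pow_le_pow_right (by norm_num) ha
      · exact Nat.pow_le_pow_left h1 6
    _ = (125 * 64) ^ a := by rw [← pow_mul, mul_comm a 6, pow_mul, mul_pow]; norm_num
    _ = 8000 ^ a := by norm_num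

theorem growT (a l t n X : ℕ) (ha : 10 ^ 13 ≤ a) (hla : a ≤ l) (hta : a ≤ t)
    (hlt : 10 ^ 13 * a ^ 3 ≤ l * t) (hn : 3 * a ≤ n) (hX : 1 ≤ X)
    (hX2 : l * t ≤ 1300000 * a ^ 3 * X) :
    (55 * ((l + a) * (t + a))) ^ a * (a * (4 * a) + 1) ^ 3 ≤ a ^ (3 * a) * X ^ n := by
  have hap : 0 < a := by omega
  have x1 : 7000000 ≤ X := by
    have h1 : a ^ 3 * 10 ^ 13 ≤ a ^ 3 * (1300000 * X) := by
      calc a ^ 3 * 10 ^ 13 = 10 ^ 13 * a ^ 3 := by ring
        _ ≤ l * t := hlt
        _ ≤ 1300000 * a ^ 3 * X := hX2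
        _ = a ^ 3 * (1300000 * X) := by ring
    have := Nat.le_of_mul_le_mul_left h1 (by positivity)
    omega
  have h1 : 55 * ((l + a) * (t + a)) ≤ a ^ 3 * (286000000 * X) := by
    calc 55 * ((l + a) * (t + a)) ≤ 55 * ((2 * l) * (2 * t)) := by
          gcongr <;> omega
      _ = 220 * (l * t) := by ring
      _ ≤ 220 * (1300000 * a ^ 3 * X) := Nat.mul_le_mul_left _ hX2
      _ = a ^ 3 * (286000000 * X) := by ring
  have h2 : 286000000 * X * 8000 ≤ X ^ 3 := by
    have : 286000000 * 8000 ≤ X * X := by nlinarith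
    calc 286000000 * X * 8000 = 286000000 * 8000 * X := by ring
      _ ≤ X * X * X := Nat.mul_le_mul_right _ this
      _ = X ^ 3 := by ring
  calc (55 * ((l + a) * (t + a))) ^ a * (a * (4 * a) + 1) ^ 3
      ≤ (a ^ 3 * (286000000 * X)) ^ a * 8000 ^ a :=
        Nat.mul_le_mul (Nat.pow_le_pow_left h1 a) (poly_le a hap)
    _ = a ^ (3 * a) * (286000000 * X * 8000) ^ a := by
        rw [mul_pow, ← pow_mul, mul_assoc, ← mul_pow]
    _ ≤ a ^ (3 * a) * (X ^ 3) ^ a := Nat.mul_le_mul_left _ (Nat.pow_le_pow_left h2 a)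
    _ = a ^ (3 * a) * X ^ (3 * a) := by rw [← pow_mul]
    _ ≤ a ^ (3 * a) * X ^ n := Nat.mul_le_mul_left _ (Nat.pow_le_pow_right hX hn)

end Vale.Agent.P181.H382.H388
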