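import Vale.Agent.P181.H382.H388.CoreT
import Vale.Agent.P181.H382.H388.NumT
import Vale.Agent.P181.H382.H510.Near

set_option autoImplicit false

/-!
# P181: `b ≥ C a` and `λ_2 D ≥ C a ^ 3`

From `CoreT` (two long rows, `4 a` letters on the lower side), `LinSharp` and `PolyS`.
-/

namespace Vale.Agent.P181.H382.H388

open Vale.Agent.P181
open Vale.Agent.P181.T4 (ex)
open Vale.Agent.P181.H280 (plethMult)
open Vale.Agent.P181.PL (dn exlt exge exfin exanti dn_succ PolyS)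
open Vale.Agent.P181.TL (dn2)
open Vale.Agent.P181.H382.H510 (dn_small dn2_eq ev)

/-- Two long rows, `b ≥ 4 a`. -/
def TwoT : Prop := ∃ A : ℕ, ∀ (a b k : ℕ) (lam : Fin (k + 3) → ℕ), A ≤ a → 4 * a ≤ b →
  ∑ i, lam i = a * b → lam 1 ≤ a ^ 2 → 10 ^ 13 * dn2 lam ≤ lam 1 →
  10 ^ 13 * a ^ 3 ≤ lam 1 * dn2 lam →
  plethMult a b (k + 3) lam ≤ plethMult b a (k + 3) lam

theorem twoT (h : CoreT) : TwoT := by
  obtain ⟨a₀, h⟩ := h
  refine ⟨10 ^ 13 + 2 * a₀, ?_⟩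
  intro a b k lam hA hb hsum hl ht hlt
  have hap : 0 < a := by omega
  have n8 : lam 2 ≤ dn2 lam := by
    unfold dn2
    exact Finset.single_le_sum (f := fun i : Fin (k + 1) => lam i.succ.succ)
      (fun i _ => Nat.zero_le _) (Finset.mem_univ (0 : Fin (k + 1)))
  obtain ⟨e, n, m, X, hh, R, K, p1, p2, p3, p4, p5, p6, p7, p8, p9, p10, p11, p12, p13⟩ :=
    pickT a (lam 1) (dn2 lam) (lam 2) (by omega) hl ht hlt n8
  have hlp : 0 < lam 1 * dn2 lam := lt_of_lt_of_le (by positivity) hlt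
  have hta : a ≤ dn2 lam := by
    have h1 : a ^ 2 * a ≤ a ^ 2 * dn2 lam := by
      calc a ^ 2 * a = a ^ 3 := by ring
        _ ≤ 10 ^ 13 * a ^ 3 := Nat.le_mul_of_pos_left _ (by norm_num)
        _ ≤ lam 1 * dn2 lam := hlt
        _ ≤ a ^ 2 * dn2 lam := Nat.mul_le_mul_right _ hl
    exact Nat.le_of_mul_le_mul_left h1 (by positivity)
  have g := growT a (lam 1) (dn2 lam) n X (by omega) (by omega) hta hlt p5 p3 p13
  have hs : lam 0 + (lam 1 + dn2 lam) = a * b := by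
    rw [← hsum, H755.sum_three]
  have hbb : (b - 4 * a) * a + 4 * a * a = a * b := by
    rw [← Nat.add_mul, Nat.sub_add_cancel hb, mul_comm]
  have h3 : 4 * a * a = 4 * a ^ 2 := by ring
  refine h a b (4 * a) k e n m X hh R K lam ?_ hsum hb (by omega) (by omega) p2 p3 p4 (by omega)
    p6 p7 p8 p9 p10 p11 p12 ?_ g
  · omega
  · calc 2 * a ^ 3 ≤ 10 ^ 13 * a ^ 3 := Nat.mul_le_mul_right _ (by norm_num)
      _ ≤ lam 1 * dn2 lam := hlt
      _ ≤ (lam 1 + a) * (dn2 lam + a) := Nat.mul_le_mul (by omega) (by omega)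

/-- `LF.H540.LinSharp`, word for word. -/
def LinSharp : Prop := ∃ (C : ℝ) (c : ℕ), 1 ≤ C ∧ ∀ a b : ℕ, C * a ≤ b →
  ∀ (n : ℕ) (lam : Fin n → ℕ),
  (C * (1 + Real.log a) ^ c * (dn lam 1 : ℝ) ≤ (a : ℝ) ^ 2 ∨
    C * (a : ℝ) ^ 5 ≤ (ex lam 1 : ℝ) ^ 2 * (dn lam 2 : ℝ) ∨
    C * (1 + Real.log a) ^ c * a ≤ (dn lam 2 : ℝ) ∨ a + dn lam 2 ≤ b + 1) →
  plethMult a b n lam ≤ plethMult b a n lam

/-- The final form. -/
def RhoC : Prop := ∃ C : ℝ, 1 ≤ C ∧ ∀ a b : ℕ, C * a ≤ b → ∀ (n : ℕ) (lam : Fin n → ℕ),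
  C * (a : ℝ) ^ 3 ≤ (ex lam 1 : ℝ) * (dn lam 2 : ℝ) →
  plethMult a b n lam ≤ plethMult b a n lam

theorem rhoC_of (h1 : TwoT) (h2 : LinSharp) (h3 : PolyS) : RhoC := by
  obtain ⟨A, hT⟩ := h1
  obtain ⟨CL, cL, hCL, hL⟩ := h2
  obtain ⟨CP, cP, hCP, hP⟩ := h3
  obtain ⟨A0, hA0⟩ := ev CL (by linarith) cL 2
  obtain ⟨A1, hA1⟩ : ∃ A1 : ℕ, A1 = A + A0 + 1 := ⟨_, rfl⟩
  have hlA : 0 ≤ Real.log A1 := Real.log_natCast_nonneg A1
  have hB : 0 ≤ CP * (1 + Real.log A1) ^ cP := by positivity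
  refine ⟨CL + 4 + 10 ^ 13 + CP * (1 + Real.log A1) ^ cP, by linarith, ?_⟩
  intro a b hab n lam hD
  obtain ⟨C, hC⟩ : ∃ C : ℝ, C = CL + 4 + 10 ^ 13 + CP * (1 + Real.log A1) ^ cP := ⟨_, rfl⟩
  rw [← hC] at hab hD
  have ha0 : (0 : ℝ) ≤ a := Nat.cast_nonneg _
  -- small `a`
  rcases lt_or_ge a A1 with hsm | hsm
  · apply hP a b
    rcases Nat.eq_zero_or_pos a with h0 | h0
    · rw [h0]; simp
    have h4 : Real.log a ≤ Real.log A1 :=
      Real.log_le_log (by exact_mod_cast h0) (by exact_mod_cast hsm.le)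
    have h5 : 0 ≤ Real.log a := Real.log_natCast_nonneg a
    have h6 : (1 + Real.log a) ^ cP ≤ (1 + Real.log A1) ^ cP :=
      pow_le_pow_left₀ (by linarith) (by linarith) _
    calc CP * a * (1 + Real.log a) ^ cP ≤ CP * a * (1 + Real.log A1) ^ cP :=
          mul_le_mul_of_nonneg_left h6 (by positivity)
      _ = (CP * (1 + Real.log A1) ^ cP) * a := by ring
      _ ≤ C * a := mul_le_mul_of_nonneg_right (by rw [hC]; linarith) ha0
      _ ≤ b := hab
  by_cases hz : plethMult a b n lam = 0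
  · rw [hz]
    exact Nat.zero_le _
  obtain ⟨hanti, hsum, _⟩ := H530.zero_stmt a b n lam hz
  have hap : 0 < a := by omega
  have har : (0 : ℝ) < a := by exact_mod_cast hap
  have hCLab : CL * a ≤ b := by
    refine le_trans (mul_le_mul_of_nonneg_right ?_ ha0) hab
    rw [hC]; linarith
  have hn : 3 ≤ n := by
    by_contra hn
    have h4 := dn_small lam (by omega)
    rw [h4, Nat.cast_zero, mul_zero] at hD
    have : 0 < C * (a : ℝ) ^ 3 := by
      have : 0 < C := by rw [hC]; linarith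
      positivity
    linarith
  obtain ⟨k, rfl⟩ := Nat.exists_eq_add_of_le' hn
  have e1 : ex lam 1 = lam 1 := by
    rw [exlt lam (by omega : 1 < k + 3)]
    rfl
  have e2 : dn2 lam = dn lam 2 := dn2_eq lam
  have hC13 : (10 : ℝ) ^ 13 ≤ C := by rw [hC]; linarith
  rcases le_or_gt (lam 1) (a ^ 2) with hl | hl
  · rcases le_or_gt (10 ^ 13 * dn2 lam) (lam 1) with ht | ht
    · apply hT a b k lam (by omega) _ hsum hl ht
      · rw [e1, ← e2] at hD
        have h4 : (10 : ℝ) ^ 13 * (a : ℝ) ^ 3 ≤ (lam 1 : ℝ) * (dn2 lam : ℝ) :=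
          (mul_le_mul_of_nonneg_right hC13 (by positivity)).trans hD
        exact_mod_cast h4
      · have h4 : (4 : ℝ) * a ≤ b := by
          refine le_trans (mul_le_mul_of_nonneg_right ?_ ha0) hab
          rw [hC]; linarith
        exact_mod_cast h4
    · apply hL a b hCLab (k + 3) lam
      right; right; left
      rw [← e2]
      rw [e1, ← e2] at hD
      have h4 : (lam 1 : ℝ) ≤ 10 ^ 13 * (dn2 lam : ℝ) := by exact_mod_cast ht.le
      have hd0 : (0 : ℝ) ≤ dn2 lam := Nat.cast_nonneg _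
      have h5 : (10 : ℝ) ^ 13 * (a : ℝ) ^ 3 ≤ 10 ^ 13 * (dn2 lam : ℝ) ^ 2 := by
        calc (10 : ℝ) ^ 13 * (a : ℝ) ^ 3 ≤ C * (a : ℝ) ^ 3 :=
              mul_le_mul_of_nonneg_right hC13 (by positivity)
          _ ≤ (lam 1 : ℝ) * (dn2 lam : ℝ) := hD
          _ ≤ (10 ^ 13 * (dn2 lam : ℝ)) * (dn2 lam : ℝ) := mul_le_mul_of_nonneg_right h4 hd0
          _ = 10 ^ 13 * (dn2 lam : ℝ) ^ 2 := by ring
      have h6 : (a : ℝ) ^ 3 ≤ (dn2 lam : ℝ) ^ 2 := by linarith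
      have h7 := hA0 a (by omega)
      have hpos : 0 ≤ CL * (1 + Real.log a) ^ cL := by
        have := Real.log_natCast_nonneg a
        have : 0 ≤ CL := by linarith
        positivity
      have h8 : (CL * (1 + Real.log a) ^ cL * a) ^ 2 ≤ (dn2 lam : ℝ) ^ 2 := by
        calc (CL * (1 + Real.log a) ^ cL * a) ^ 2
            = (CL * (1 + Real.log a) ^ cL) ^ 2 * (a : ℝ) ^ 2 := by ring
          _ ≤ a * (a : ℝ) ^ 2 := mul_le_mul_of_nonneg_right h7 (by positivity)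
          _ = (a : ℝ) ^ 3 := by ring
          _ ≤ (dn2 lam : ℝ) ^ 2 := h6
      exact (pow_le_pow_iff_left₀ (mul_nonneg hpos ha0) hd0 (by norm_num)).1 h8
  · apply hL a b hCLab (k + 3) lam
    by_cases hf : a + dn lam 2 ≤ b + 1
    · exact Or.inr (Or.inr (Or.inr hf))
    · right; left
      have h4 : b + 1 ≤ a + dn lam 2 := by omega
      have h5 : (b : ℝ) + 1 ≤ a + (dn lam 2 : ℝ) := by exact_mod_cast h4
      have h6 : CL * (a : ℝ) ≤ dn lam 2 := by
        have : (CL + 1) * (a : ℝ) ≤ b := by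
          refine le_trans (mul_le_mul_of_nonneg_right ?_ ha0) hab
          rw [hC]; linarith
        linarith
      have h7 : (a : ℝ) ^ 2 ≤ (ex lam 1 : ℝ) := by
        rw [e1]
        exact_mod_cast hl.le
      calc CL * (a : ℝ) ^ 5 = ((a : ℝ) ^ 2) ^ 2 * (CL * a) := by ring
        _ ≤ (ex lam 1 : ℝ) ^ 2 * (dn lam 2 : ℝ) :=
          mul_le_mul (pow_le_pow_left₀ (by positivity) h7 2) h6
            (mul_nonneg (by linarith) ha0) (by positivity)

end Vale.Agent.P181.H382.H388
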