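import Vale.Agent.P181.H382.H388.RhoC
import Vale.Agent.P181.H382.H755.AllS
import Vale.Agent.P181.LF.H797.SharpX
import Vale.Agent.P181.PLX.Main

set_option autoImplicit false

/-!
# P181: `b ≥ C a` and `λ_2 D ≥ C a ^ 3`, without hypotheses
-/

namespace Vale.Agent.P181.H382.H388

open Vale.Agent.P181

theorem coreT_closed : CoreT :=
  coreT H112.upC H514.cntC H755.lowM_closed GK.H435.padPos (BAL.H676.balance_of BAL.H467.nine)
    H755.sum_of_mult

theorem twoT_closed : TwoT := twoT coreT_closed

/-- For `b ≥ C a` every shape with `λ_2 D ≥ C a ^ 3`. -/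
theorem rhoC_closed : RhoC := rhoC_of twoT_closed LF.H797.linSharp_closed PLX.polyS

end Vale.Agent.P181.H382.H388
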